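import Vale.Agent.P236JY.Sph

/-!
# P236JY / comparison of the short parts (generated)
-/

namespace Vale.Agent.P236JY

theorem c3_0 : cgA 3 0 1 = true := by decide +kernel
theorem c3_2 : cgA 3 2 2 = true := by decide +kernel
theorem c3_5 : cgA 3 5 4 = true := by decide +kernel
theorem c3_10 : cgA 3 10 20 = true := by decide +kernel
theorem g3 (i : ℕ) (h : i < 31) : cq2 3 i = true :=
  if h0 : i ≤ 1 then cgA_spec c3_0 (by omega) (by omega) else
  if h1 : i ≤ 4 then cgA_spec c3_2 (by omega) (by omega) else
  if h2 : i ≤ 9 then cgA_spec c3_5 (by omega) (by omega) else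
  cgA_spec c3_10 (by omega) (by omega)

end Vale.Agent.P236JY
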