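import Vale.Agent.P236JY.Sph

/-!
# P236JY / comparison of the short parts (generated)
-/

namespace Vale.Agent.P236JY

theorem c4_0 : cgA 4 0 2 = true := by decide +kernel
theorem c4_3 : cgA 4 3 3 = true := by decide +kernel
theorem c4_7 : cgA 4 7 5 = true := by decide +kernel
theorem c4_13 : cgA 4 13 27 = true := by decide +kernel
theorem g4 (i : ℕ) (h : i < 41) : cq2 4 i = true :=
  if h0 : i ≤ 2 then cgA_spec c4_0 (by omega) (by omega) else
  if h1 : i ≤ 6 then cgA_spec c4_3 (by omega) (by omega) else
  if h2 : i ≤ 12 then cgA_spec c4_7 (by omega) (by omega) else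
  cgA_spec c4_13 (by omega) (by omega)

end Vale.Agent.P236JY
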