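import Vale.Agent.P236JY.Sph

/-!
# P236JY / comparison of the short parts (generated)
-/

namespace Vale.Agent.P236JY

theorem c5_0 : cgA 5 0 2 = true := by decide +kernel
theorem c5_3 : cgA 5 3 3 = true := by decide +kernel
theorem c5_7 : cgA 5 7 6 = true := by decide +kernel
theorem c5_14 : cgA 5 14 30 = true := by decide +kernel
theorem g5 (i : ℕ) (h : i < 45) : cq2 5 i = true :=
  if h0 : i ≤ 2 then cgA_spec c5_0 (by omega) (by omega) else
  if h1 : i ≤ 6 then cgA_spec c5_3 (by omega) (by omega) else
  if h2 : i ≤ 13 then cgA_spec c5_7 (by omega) (by omega) else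
  cgA_spec c5_14 (by omega) (by omega)

theorem c6_0 : cgA 6 0 2 = true := by decide +kernel
theorem c6_3 : cgA 6 3 3 = true := by decide +kernel
theorem c6_7 : cgA 6 7 7 = true := by decide +kernel
theorem c6_15 : cgA 6 15 28 = true := by decide +kernel
theorem g6 (i : ℕ) (h : i < 44) : cq2 6 i = true :=
  if h0 : i ≤ 2 then cgA_spec c6_0 (by omega) (by omega) else
  if h1 : i ≤ 6 then cgA_spec c6_3 (by omega) (by omega) else
  if h2 : i ≤ 14 then cgA_spec c6_7 (by omega) (by omega) else
  cgA_spec c6_15 (by omega) (by omega)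

end Vale.Agent.P236JY
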