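import Vale.Agent.P236JY.Sph

/-!
# P236JY / comparison of the short parts (generated)
-/

namespace Vale.Agent.P236JY

theorem c7_0 : cgA 7 0 2 = true := by decide +kernel
theorem c7_3 : cgA 7 3 4 = true := by decide +kernel
theorem c7_8 : cgA 7 8 32 = true := by decide +kernel
theorem g7 (i : ℕ) (h : i < 41) : cq2 7 i = true :=
  if h0 : i ≤ 2 then cgA_spec c7_0 (by omega) (by omega) else
  if h1 : i ≤ 7 then cgA_spec c7_3 (by omega) (by omega) else
  cgA_spec c7_8 (by omega) (by omega)

theorem c8_0 : cgA 8 0 3 = true := by decide +kernel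
theorem c8_4 : cgA 8 4 5 = true := by decide +kernel
theorem c8_10 : cgA 8 10 29 = true := by decide +kernel
theorem g8 (i : ℕ) (h : i < 40) : cq2 8 i = true :=
  if h0 : i ≤ 3 then cgA_spec c8_0 (by omega) (by omega) else
  if h1 : i ≤ 9 then cgA_spec c8_4 (by omega) (by omega) else
  cgA_spec c8_10 (by omega) (by omega)

end Vale.Agent.P236JY
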