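import Vale.Agent.P236JY.Sph

/-!
# P236JY / comparison of the short parts (generated)
-/

namespace Vale.Agent.P236JY

theorem c9_0 : cgA 9 0 3 = true := by decide +kernel
theorem c9_4 : cgA 9 4 7 = true := by decide +kernel
theorem c9_12 : cgA 9 12 30 = true := by decide +kernel
theorem g9 (i : ℕ) (h : i < 43) : cq2 9 i = true :=
  if h0 : i ≤ 3 then cgA_spec c9_0 (by omega) (by omega) else
  if h1 : i ≤ 11 then cgA_spec c9_4 (by omega) (by omega) else
  cgA_spec c9_12 (by omega) (by omega)

theorem c10_0 : cgA 10 0 3 = true := by decide +kernel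
theorem c10_4 : cgA 10 4 8 = true := by decide +kernel
theorem c10_13 : cgA 10 13 30 = true := by decide +kernel
theorem g10 (i : ℕ) (h : i < 44) : cq2 10 i = true :=
  if h0 : i ≤ 3 then cgA_spec c10_0 (by omega) (by omega) else
  if h1 : i ≤ 12 then cgA_spec c10_4 (by omega) (by omega) else
  cgA_spec c10_13 (by omega) (by omega)

theorem c11_0 : cgA 11 0 4 = true := by decide +kernel
theorem c11_5 : cgA 11 5 32 = true := by decide +kernel
theorem c11_38 : cgA 11 38 5 = true := by decide +kernel
theorem g11 (i : ℕ) (h : i < 44) : cq2 11 i = true :=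
  if h0 : i ≤ 4 then cgA_spec c11_0 (by omega) (by omega) else
  if h1 : i ≤ 37 then cgA_spec c11_5 (by omega) (by omega) else
  cgA_spec c11_38 (by omega) (by omega)

end Vale.Agent.P236JY
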