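import Vale.Agent.P236JY.Sph

/-!
# P236JY / comparison of the short parts (generated)
-/

namespace Vale.Agent.P236JY

theorem c12_0 : cgA 12 0 4 = true := by decide +kernel
theorem c12_5 : cgA 12 5 34 = true := by decide +kernel
theorem g12 (i : ℕ) (h : i < 40) : cq2 12 i = true :=
  if h0 : i ≤ 4 then cgA_spec c12_0 (by omega) (by omega) else
  cgA_spec c12_5 (by omega) (by omega)

theorem c13_0 : cgA 13 0 4 = true := by decide +kernel
theorem c13_5 : cgA 13 5 28 = true := by decide +kernel
theorem g13 (i : ℕ) (h : i < 34) : cq2 13 i = true :=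
  if h0 : i ≤ 4 then cgA_spec c13_0 (by omega) (by omega) else
  cgA_spec c13_5 (by omega) (by omega)

theorem c14_0 : cgA 14 0 5 = true := by decide +kernel
theorem c14_6 : cgA 14 6 25 = true := by decide +kernel
theorem g14 (i : ℕ) (h : i < 32) : cq2 14 i = true :=
  if h0 : i ≤ 5 then cgA_spec c14_0 (by omega) (by omega) else
  cgA_spec c14_6 (by omega) (by omega)

theorem c15_0 : cgA 15 0 6 = true := by decide +kernel
theorem c15_7 : cgA 15 7 21 = true := by decide +kernel
theorem g15 (i : ℕ) (h : i < 29) : cq2 15 i = true :=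
  if h0 : i ≤ 6 then cgA_spec c15_0 (by omega) (by omega) else
  cgA_spec c15_7 (by omega) (by omega)

end Vale.Agent.P236JY
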