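import Vale.Agent.P236JY.Sph

/-!
# P236JY / comparison of the short parts (generated)
-/

namespace Vale.Agent.P236JY

theorem c16_0 : cgA 16 0 7 = true := by decide +kernel
theorem c16_8 : cgA 16 8 17 = true := by decide +kernel
theorem g16 (i : ℕ) (h : i < 26) : cq2 16 i = true :=
  if h0 : i ≤ 7 then cgA_spec c16_0 (by omega) (by omega) else
  cgA_spec c16_8 (by omega) (by omega)

theorem c17_0 : cgA 17 0 8 = true := by decide +kernel
theorem c17_9 : cgA 17 9 14 = true := by decide +kernel
theorem g17 (i : ℕ) (h : i < 24) : cq2 17 i = true :=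
  if h0 : i ≤ 8 then cgA_spec c17_0 (by omega) (by omega) else
  cgA_spec c17_9 (by omega) (by omega)

theorem c18_0 : cgA 18 0 10 = true := by decide +kernel
theorem c18_11 : cgA 18 11 12 = true := by decide +kernel
theorem g18 (i : ℕ) (h : i < 24) : cq2 18 i = true :=
  if h0 : i ≤ 10 then cgA_spec c18_0 (by omega) (by omega) else
  cgA_spec c18_11 (by omega) (by omega)

theorem c19_0 : cgA 19 0 17 = true := by decide +kernel
theorem c19_18 : cgA 19 18 5 = true := by decide +kernel
theorem g19 (i : ℕ) (h : i < 24) : cq2 19 i = true :=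
  if h0 : i ≤ 17 then cgA_spec c19_0 (by omega) (by omega) else
  cgA_spec c19_18 (by omega) (by omega)

theorem c20_0 : cgA 20 0 23 = true := by decide +kernel
theorem g20 (i : ℕ) (h : i < 24) : cq2 20 i = true :=
  cgA_spec c20_0 (by omega) (by omega)

theorem c21_0 : cgA 21 0 23 = true := by decide +kernel
theorem g21 (i : ℕ) (h : i < 24) : cq2 21 i = true :=
  cgA_spec c21_0 (by omega) (by omega)

end Vale.Agent.P236JY
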