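import Vale.Agent.P236JY.Sph

/-!
# P236JY / comparison of the short parts (generated)
-/

namespace Vale.Agent.P236JY

theorem c22_0 : cgA 22 0 23 = true := by decide +kernel
theorem g22 (i : ℕ) (h : i < 24) : cq2 22 i = true :=
  cgA_spec c22_0 (by omega) (by omega)

theorem c23_0 : cgA 23 0 22 = true := by decide +kernel
theorem g23 (i : ℕ) (h : i < 23) : cq2 23 i = true :=
  cgA_spec c23_0 (by omega) (by omega)

theorem c24_0 : cgA 24 0 22 = true := by decide +kernel
theorem g24 (i : ℕ) (h : i < 23) : cq2 24 i = true :=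
  cgA_spec c24_0 (by omega) (by omega)

theorem c25_0 : cgA 25 0 21 = true := by decide +kernel
theorem g25 (i : ℕ) (h : i < 22) : cq2 25 i = true :=
  cgA_spec c25_0 (by omega) (by omega)

theorem c26_0 : cgA 26 0 20 = true := by decide +kernel
theorem g26 (i : ℕ) (h : i < 21) : cq2 26 i = true :=
  cgA_spec c26_0 (by omega) (by omega)

theorem c27_0 : cgA 27 0 20 = true := by decide +kernel
theorem g27 (i : ℕ) (h : i < 21) : cq2 27 i = true :=
  cgA_spec c27_0 (by omega) (by omega)

theorem c28_0 : cgA 28 0 19 = true := by decide +kernel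
theorem g28 (i : ℕ) (h : i < 20) : cq2 28 i = true :=
  cgA_spec c28_0 (by omega) (by omega)

theorem c29_0 : cgA 29 0 18 = true := by decide +kernel
theorem g29 (i : ℕ) (h : i < 19) : cq2 29 i = true :=
  cgA_spec c29_0 (by omega) (by omega)

theorem c30_0 : cgA 30 0 17 = true := by decide +kernel
theorem g30 (i : ℕ) (h : i < 18) : cq2 30 i = true :=
  cgA_spec c30_0 (by omega) (by omega)

theorem c31_0 : cgA 31 0 16 = true := by decide +kernel
theorem g31 (i : ℕ) (h : i < 17) : cq2 31 i = true :=
  cgA_spec c31_0 (by omega) (by omega)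

theorem c32_0 : cgA 32 0 14 = true := by decide +kernel
theorem g32 (i : ℕ) (h : i < 15) : cq2 32 i = true :=
  cgA_spec c32_0 (by omega) (by omega)

theorem c33_0 : cgA 33 0 13 = true := by decide +kernel
theorem g33 (i : ℕ) (h : i < 14) : cq2 33 i = true :=
  cgA_spec c33_0 (by omega) (by omega)

theorem c34_0 : cgA 34 0 13 = true := by decide +kernel
theorem g34 (i : ℕ) (h : i < 14) : cq2 34 i = true :=
  cgA_spec c34_0 (by omega) (by omega)

theorem c35_0 : cgA 35 0 12 = true := by decide +kernel
theorem g35 (i : ℕ) (h : i < 13) : cq2 35 i = true :=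
  cgA_spec c35_0 (by omega) (by omega)

theorem c36_0 : cgA 36 0 11 = true := by decide +kernel
theorem g36 (i : ℕ) (h : i < 12) : cq2 36 i = true :=
  cgA_spec c36_0 (by omega) (by omega)

theorem c37_0 : cgA 37 0 11 = true := by decide +kernel
theorem g37 (i : ℕ) (h : i < 12) : cq2 37 i = true :=
  cgA_spec c37_0 (by omega) (by omega)

theorem c38_0 : cgA 38 0 10 = true := by decide +kernel
theorem g38 (i : ℕ) (h : i < 11) : cq2 38 i = true :=
  cgA_spec c38_0 (by omega) (by omega)

theorem c39_0 : cgA 39 0 9 = true := by decide +kernel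
theorem g39 (i : ℕ) (h : i < 10) : cq2 39 i = true :=
  cgA_spec c39_0 (by omega) (by omega)

end Vale.Agent.P236JY
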