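import Vale.Agent.P236JY.Sph

/-!
# P236JY / comparison of the short parts (generated)
-/

namespace Vale.Agent.P236JY

theorem c40_0 : cgA 40 0 9 = true := by decide +kernel
theorem g40 (i : ℕ) (h : i < 10) : cq2 40 i = true :=
  cgA_spec c40_0 (by omega) (by omega)

theorem c41_0 : cgA 41 0 9 = true := by decide +kernel
theorem g41 (i : ℕ) (h : i < 10) : cq2 41 i = true :=
  cgA_spec c41_0 (by omega) (by omega)

theorem c42_0 : cgA 42 0 9 = true := by decide +kernel
theorem g42 (i : ℕ) (h : i < 10) : cq2 42 i = true :=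
  cgA_spec c42_0 (by omega) (by omega)

theorem c43_0 : cgA 43 0 9 = true := by decide +kernel
theorem g43 (i : ℕ) (h : i < 10) : cq2 43 i = true :=
  cgA_spec c43_0 (by omega) (by omega)

theorem c44_0 : cgA 44 0 9 = true := by decide +kernel
theorem g44 (i : ℕ) (h : i < 10) : cq2 44 i = true :=
  cgA_spec c44_0 (by omega) (by omega)

theorem c45_0 : cgA 45 0 9 = true := by decide +kernel
theorem g45 (i : ℕ) (h : i < 10) : cq2 45 i = true :=
  cgA_spec c45_0 (by omega) (by omega)

theorem c46_0 : cgA 46 0 9 = true := by decide +kernel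
theorem g46 (i : ℕ) (h : i < 10) : cq2 46 i = true :=
  cgA_spec c46_0 (by omega) (by omega)

theorem c47_0 : cgA 47 0 9 = true := by decide +kernel
theorem g47 (i : ℕ) (h : i < 10) : cq2 47 i = true :=
  cgA_spec c47_0 (by omega) (by omega)

theorem c48_0 : cgA 48 0 9 = true := by decide +kernel
theorem g48 (i : ℕ) (h : i < 10) : cq2 48 i = true :=
  cgA_spec c48_0 (by omega) (by omega)

theorem c49_0 : cgA 49 0 8 = true := by decide +kernel
theorem g49 (i : ℕ) (h : i < 9) : cq2 49 i = true :=
  cgA_spec c49_0 (by omega) (by omega)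

theorem c50_0 : cgA 50 0 7 = true := by decide +kernel
theorem g50 (i : ℕ) (h : i < 8) : cq2 50 i = true :=
  cgA_spec c50_0 (by omega) (by omega)

theorem c51_0 : cgA 51 0 6 = true := by decide +kernel
theorem g51 (i : ℕ) (h : i < 7) : cq2 51 i = true :=
  cgA_spec c51_0 (by omega) (by omega)

theorem c52_0 : cgA 52 0 6 = true := by decide +kernel
theorem g52 (i : ℕ) (h : i < 7) : cq2 52 i = true :=
  cgA_spec c52_0 (by omega) (by omega)

theorem c53_0 : cgA 53 0 5 = true := by decide +kernel
theorem g53 (i : ℕ) (h : i < 6) : cq2 53 i = true :=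
  cgA_spec c53_0 (by omega) (by omega)

theorem c54_0 : cgA 54 0 4 = true := by decide +kernel
theorem g54 (i : ℕ) (h : i < 5) : cq2 54 i = true :=
  cgA_spec c54_0 (by omega) (by omega)

theorem c55_0 : cgA 55 0 4 = true := by decide +kernel
theorem g55 (i : ℕ) (h : i < 5) : cq2 55 i = true :=
  cgA_spec c55_0 (by omega) (by omega)

theorem c56_0 : cgA 56 0 3 = true := by decide +kernel
theorem g56 (i : ℕ) (h : i < 4) : cq2 56 i = true :=
  cgA_spec c56_0 (by omega) (by omega)

theorem c57_0 : cgA 57 0 2 = true := by decide +kernel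
theorem g57 (i : ℕ) (h : i < 3) : cq2 57 i = true :=
  cgA_spec c57_0 (by omega) (by omega)

theorem c58_0 : cgA 58 0 1 = true := by decide +kernel
theorem g58 (i : ℕ) (h : i < 2) : cq2 58 i = true :=
  cgA_spec c58_0 (by omega) (by omega)

theorem c59_0 : cgA 59 0 1 = true := by decide +kernel
theorem g59 (i : ℕ) (h : i < 2) : cq2 59 i = true :=
  cgA_spec c59_0 (by omega) (by omega)

end Vale.Agent.P236JY
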