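import Vale.Agent.P236JY.C0
import Vale.Agent.P236JY.C1
import Vale.Agent.P236JY.C2
import Vale.Agent.P236JY.C3
import Vale.Agent.P236JY.C4
import Vale.Agent.P236JY.C5
import Vale.Agent.P236JY.C6
import Vale.Agent.P236JY.C7
import Vale.Agent.P236JY.C8
import Vale.Agent.P236JY.C9
import Vale.Agent.P236KE.S90.Ok
import Vale.Agent.P236JF.Main
import Vale.Agent.P236J.Defs

/-!
# P236JY / Dif : the lifted resolution agrees with the old one modulo the cube of the ideal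
-/

noncomputable section

namespace Vale.Agent.P236JY

open MvPolynomial Vale.Agent.P236EL Vale.Agent.P236KE Vale.Agent.P236K3 Vale.Agent.P236KE.S90
open Vale.Agent.P236JF

/-- the numbers of generators -/
def ns : List ℕ :=
  [1, 5, 16, 31, 41, 45, 44, 41, 40, 43, 44, 44, 40, 34, 32, 29, 26, 24, 24, 24, 24, 24, 24, 23, 23, 22, 21, 21, 20, 19,
    18, 17, 15, 14, 14, 13, 12, 12, 11, 10, 10, 10, 10, 10, 10, 10, 10, 10, 10, 9, 8, 7, 7, 6, 5, 5, 4, 3, 2, 2]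

theorem n_eq : ∀ q < 60, sph.n q = ns.getD q 0 := by decide +kernel

theorem n_zero (q : ℕ) : sph.n (q + 61) = 0 := by
  change (sph.nn >>> (8 * (q + 61))) &&& 255 = 0
  rw [Nat.shiftRight_eq_div_pow, Nat.div_eq_of_lt, Nat.zero_and]
  rw [Nat.mul_add, pow_add]
  exact Nat.lt_of_lt_of_le (show sph.nn < 2 ^ (8 * 61) by decide +kernel)
    (Nat.le_mul_of_pos_left _ (Nat.two_pow_pos _))

theorem cq_all : ∀ q, q < 60 → ∀ i < ns.getD q 0, cq2 q i = true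
  | 0, _ => g0
  | 1, _ => g1
  | 2, _ => g2
  | 3, _ => g3
  | 4, _ => g4
  | 5, _ => g5
  | 6, _ => g6
  | 7, _ => g7
  | 8, _ => g8
  | 9, _ => g9
  | 10, _ => g10
  | 11, _ => g11
  | 12, _ => g12
  | 13, _ => g13
  | 14, _ => g14
  | 15, _ => g15
  | 16, _ => g16
  | 17, _ => g17
  | 18, _ => g18
  | 19, _ => g19
  | 20, _ => g20
  | 21, _ => g21
  | 22, _ => g22
  | 23, _ => g23
  | 24, _ => g24
  | 25, _ => g25
  | 26, _ => g26
  | 27, _ => g27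
  | 28, _ => g28
  | 29, _ => g29
  | 30, _ => g30
  | 31, _ => g31
  | 32, _ => g32
  | 33, _ => g33
  | 34, _ => g34
  | 35, _ => g35
  | 36, _ => g36
  | 37, _ => g37
  | 38, _ => g38
  | 39, _ => g39
  | 40, _ => g40
  | 41, _ => g41
  | 42, _ => g42
  | 43, _ => g43
  | 44, _ => g44
  | 45, _ => g45
  | 46, _ => g46
  | 47, _ => g47
  | 48, _ => g48
  | 49, _ => g49
  | 50, _ => g50
  | 51, _ => g51
  | 52, _ => g52
  | 53, _ => g53
  | 54, _ => g54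
  | 55, _ => g55
  | 56, _ => g56
  | 57, _ => g57
  | 58, _ => g58
  | 59, _ => g59
  | q + 60, h => absurd h (by omega)

variable [Fact (Nat.Prime 3)]

/-- **the difference lies in the cube of the ideal** -/
theorem rJ_dif (q : ℕ) (w : sph.G (q + 1)) (w' : sph.G (q + 2)) (E : ℕ →₀ ℕ) :
    rJ.y q w w' E - (sph.rs K).y q w w' E ∈ I ^ 3 := by
  by_cases hq : q < 60
  · exact rJ_diff w (cq_all q hq w (Nat.lt_of_lt_of_eq w.2 (n_eq q hq))) w' E
  · obtain ⟨r, rfl⟩ := Nat.exists_eq_add_of_le' (not_lt.1 hq)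
    exact absurd (Nat.lt_of_lt_of_eq w'.2 (n_zero r)) (Nat.not_lt_zero _)

theorem rsJ_deg (S : Sq) (T : ℕ) (Y : ℕ → ℕ → Fn) : (rsJ S T Y).deg = (S.rs K).deg := rfl
theorem rsJ_th (S : Sq) (T : ℕ) (Y : ℕ → ℕ → Fn) : (rsJ S T Y).th = (S.rs K).th := rfl
theorem rsJ_e (S : Sq) (T : ℕ) (Y : ℕ → ℕ → Fn) : (rsJ S T Y).e = (S.rs K).e := rfl
theorem rJ_deg : rJ.deg = (sph.rs K).deg := rsJ_deg _ _ _
theorem rJ_th : rJ.th = (sph.rs K).th := rsJ_th _ _ _
theorem rJ_e : rJ.e = (sph.rs K).e := rsJ_e _ _ _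

theorem k2J : rJ.K2 (RingHom.id K) 61 90 :=
  k2_congr (R := sph.rs K) (R' := rJ) (show ((3 : ℕ) : K) = 0 from rfl) rJ_deg rJ_e
    (fun q w w' E => Ideal.pow_le_self (by decide) (rJ_dif q w w' E)) ok3.k2

/-- **the curvature condition is the only remaining hypothesis** -/
theorem okJ {Q : ℕ} {T : ℤ} (h : rJ.K1 (Jr K 3) Q T) (hQ : Q ≤ 61) (hT : T ≤ 90) :
    rJ.OkJ (RingHom.id K) (Jr K 3) Q T :=
  ⟨ok3.surj, ok3.ker, ⟨1, by decide⟩, inv_Jr K 3, h, k2J.inj, fun e he => k2J.aug e (he.trans hT),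
    fun q hq e he => k2J.ex q (hq.trans_le hQ) e (he.trans hT)⟩

end Vale.Agent.P236JY

end
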