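import Vale.Agent.P236JY.FsX
import Vale.Agent.P236JX.Emit

/-!
# P236JY / EmF : faster versions of the chains of checks
-/

noncomputable section

namespace Vale.Agent.P236JY

open Vale.Agent.P236EL Vale.Agent.P236KE Vale.Agent.P236K3 Vale.Agent.P236J3 Vale.Agent.P236JR
  Vale.Agent.P236JX Vale.Agent.P236F Vale.Agent.P251.F

def rf0 (L : LD) (T : Nat) (c c' : CL) (k : P → Bool) (x : P) : Bool :=
  force (mskF L T c c' (nat_lit 0) (nat_lit 0)) (re2 k x)
/-- restriction -/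
def reF (L : LD) (T : Nat) (c c' : CL) (v : VC) : VC := ⟨fun k => v.run (rf0 L T c c' k)⟩
def df6 (r : Rw) (L' : LD) (k T' : Nat) (c c' : CL) (i j l e2 e3 e4 : Nat) (kk : KK) (x z : P)
    (p t : Nat) : Bool :=
  Bool.rec (motive := fun _ => Bool)
    (force (mskF L' T' c c' j l) (dj7 r k i e2 e3 e4 kk x z p t))
    (kk.f x z) (Nat.beq t (nat_lit 0))
def df5 (r : Rw) (L' : LD) (k T' : Nat) (c c' : CL) (i j l e2 e3 e4 : Nat) (kk : KK) (x z : P)
    (p : Nat) : Bool :=
  force (Nat.add (Nat.land (Nat.shiftRight x.a p) (nat_lit 1))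
    (Nat.mul (nat_lit 2) (Nat.land (Nat.shiftRight x.b p) (nat_lit 1))))
    (df6 r L' k T' c c' i j l e2 e3 e4 kk x z p)
def df4 (r : Rw) (L L' : LD) (k T' : Nat) (c c' : CL) (i j l e2 e3 e4 : Nat) (kk : KK) (x z : P) :
    Bool := force (plc L i e3 e4) (df5 r L' k T' c c' i j l e2 e3 e4 kk x z)
def df3 (r : Rw) (L L' : LD) (k T' : Nat) (c c' : CL) (i j l e2 e3 e4 : Nat) (kk : KK) : KK :=
  ⟨df4 r L L' k T' c c' i j l e2 e3 e4 kk⟩
def dfS (r : Rw) (L L' : LD) (k T T' : Nat) (c c' : CL) (f : P → Bool) (x : P) : Bool :=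
  (enumW c (wn c c') (df3 r L L' k T' c c') L T ⟨dlE f⟩).f x P.zero
/-- the twisted differential -/
def dlF (r : Rw) (L L' : LD) (k T T' : Nat) (c c' : CL) (v : VC) : VC :=
  ⟨fun f => v.run (dfS r L L' k T T' c c' f)⟩

variable {G : Type} {ix : G → ℕ} {L L' : LD} {T T' : ℕ} {c c' m : CL}

theorem reF_eq (hL : L.Ok ix) (hT : T ≤ L.T) (hV : One (Wn c c')) :
    reF L T c c' = reJ L T c c' := by
  have h : rf0 L T c c' = re1 L T c c' := by
    funext k x
    rw [rf0, mskF_eq hL hT hV, re1]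
  funext v
  rw [reF, h, reJ]

theorem dlF_eq (hL : L'.Ok ix) (hT : T' ≤ L'.T) (hV : Vis c c' = true) (r : Rw) (k : ℕ) :
    dlF r L L' k T T' c c' = dlJ r L L' k T T' c c' := by
  have h6 : df6 r L' k T' c c' = dj6 r L' k T' c c' := by
    funext i j l e2 e3 e4 kk x z p t
    rw [df6, mskF_eq hL hT (Vis.one hV), dj6]
  have h5 : df5 r L' k T' c c' = dj5 r L' k T' c c' := by
    funext i j l e2 e3 e4 kk x z p
    rw [df5, h6, dj5]
  have h4 : df4 r L L' k T' c c' = dj4 r L L' k T' c c' := by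
    funext i j l e2 e3 e4 kk x z
    rw [df4, h5, dj4]
  have h3 : df3 r L L' k T' c c' = dj3 r L L' k T' c c' := by
    funext i j l e2 e3 e4 kk
    rw [df3, h4, dj3]
  have h2 : dfS r L L' k T T' c c' = djS r L L' k T T' c c' := by
    funext f x
    rw [dfS, h3, enumW_eq (lst_wn hV), djS]
  funext v
  rw [dlF, h2, dlJ]

theorem one_le (hV : Vis c c' = true) (h : Le c' m = true) : One (Wn c m) :=
  (Vis.one hV).mono fun _ h1 => ⟨h1.1, fun h2 => h1.2 (Le.InU h h2)⟩

theorem vis_le (hV : Vis c c' = true) (h : Le m c = true) : Vis m c' = true :=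
  List.all_eq_true.2 fun x hx => Vis.inU hV (List.all_eq_true.1 h x hx) (le_max_left _ _)

theorem grd_congr {a b b' : Bool} (h : a = true → b = b') : grd a b = grd a b' := by
  cases a
  · rfl
  · exact h rfl

/-- the basic checks -/
structure Pr : Type where
  ge : Nat → Nat → CN → CN → CN → CN → List (List Tr) → Bool
  mb : Nat → Nat → CN → CN → List (List Tr) → List Tr → Bool
  nm : Nat → Nat → CN → CN → List (List Tr) → List Tr → Bool
  cl : Nat → Nat → CN → CN → CN → List Tr → Bool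

namespace Pr

variable (E : Pr) (E' : JD) (s T : Nat)

def st3 (m a b d : Nat) : Bool :=
  E.ge s T [(nat_lit 3, a)] [(nat_lit 6, b)] [(nat_lit 0, m)] [(nat_lit 3, d)] []
def st2 (m a b : Nat) : Bool := force (Nat.succ a) (E.st3 s T m a b)
def st1 (m a : Nat) : Bool := force (Nat.add a (nat_lit 3)) (E.st2 s T m a)
def st (i m : Nat) : Bool := force (Nat.add i (nat_lit 3)) (E.st1 s T m)
def ht2 (r : Bool) (i : Nat) : Bool := grd (force (Nat.succ i) (E.st s T i)) r
def ht1 (lo j : Nat) (r : Bool) : Bool := force (Nat.add lo j) (E.ht2 s T r)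
def htC (lo n : Nat) : Bool := loop (E.ht1 s T lo) n true
def htA (lo n : Nat) : Bool := grd (E'.em s T [(3, lo + n + 3)]) (E.htC s T lo n)
def sx2 (m : Nat) (r : Bool) (i : Nat) : Bool := grd (E.st s T i m) r
def sx1 (k m j : Nat) (r : Bool) : Bool := force (Nat.add k j) (E.sx2 s T m r)
def ex3 (k p : Nat) (l : List Tr) (m s' b : Nat) : Bool :=
  grd (E.cl s T [(nat_lit 0, k)] [(nat_lit 3, b)] [(nat_lit 0, m)] l)
    (grd (Nat.ble (nat_lit 1) p) (loop (E.sx1 s' T k m) (Nat.pred p) true))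
def ex2 (k p : Nat) (l : List Tr) (m s' : Nat) : Bool :=
  force (Nat.add k (nat_lit 3)) (E.ex3 s T k p l m s')
def ex1 (k p : Nat) (l : List Tr) (m : Nat) : Bool := force (Nat.succ s) (E.ex2 s T k p l m)
def exC (k p : Nat) (l : List Tr) : Bool := force (Nat.add k p) (E.ex1 s T k p l)
def hg1 (g : Sg) (t : List Sg) (r : Bool) : Bool := grd (JD.sgL g) (grd (E'.sgN s T g t)
  (grd (E.ge s T g.c g.c1 g.cb g.c2 (g.ls.map Prod.snd)) r))
def hgC (sg : List Sg) : Bool := List.rec (motive := fun _ => Bool) true (E.hg1 E' s T) sg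
def idM (c c' : CN) (gh ls : List (List Tr)) : Bool := List.rec (motive := fun _ => Bool) true
  (fun l ls r => grd (E.nm s T c c' (List.append ls gh) l) r) ls
def nx3 (k : Nat) (re gh : List (List Tr)) (a b d : Nat) : Bool :=
  grd (E.ge s T [(nat_lit 0, k)] [(nat_lit 3, d)] [(nat_lit 0, a)] [(nat_lit 0, b)]
    (List.append re gh)) (E.idM s T [(nat_lit 0, nat_lit 0)]
      [(nat_lit 3, nat_lit 3), (nat_lit 0, b)] gh re)
def nx2 (k : Nat) (re gh : List (List Tr)) (a b : Nat) : Bool :=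
  force (Nat.add k (nat_lit 3)) (E.nx3 s T k re gh a b)
def nx1 (k : Nat) (re gh : List (List Tr)) (a : Nat) : Bool :=
  force (Nat.succ k) (E.nx2 s T k re gh a)
def nxC (k : Nat) (re gh : List (List Tr)) : Bool :=
  force (Nat.sub k (nat_lit 2)) (E.nx1 s T k re gh)
def z4 (k1 k3 i1 i3 i4 i6 : Nat) : Bool :=
  E.ge s T [(nat_lit 0, k1), (nat_lit 3, i3)] [(nat_lit 3, k3), (nat_lit 6, i6)] [(nat_lit 0, i1)]
    [(nat_lit 0, k1), (nat_lit 3, i4)] []
def z3 (k a j : Nat) (r : Bool) : Bool :=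
  grd (force (k + 1) fun k1 => force (k + 3) fun k3 => force (a + j + 1) fun i1 =>
    force (a + j + 3) fun i3 => force (a + j + 4) fun i4 => force (a + j + 6)
      (E.z4 s T k1 k3 i1 i3 i4)) r
def zC (k a : Nat) (g : List Tr) : Bool :=
  grd (Nat.ble (a + 2) k) (grd (E.mb s T [(0, a)] [(0, k + 1), (3, a + 3)] [] g)
    (grd (E.cl s T [(0, k)] [(3, k + 3)] [(0, k + 1)] g) (loop (E.z3 s T k a) (k - (a + 2)) true)))

end Pr

end Vale.Agent.P236JY

namespace Vale.Agent.P236JX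

open Vale.Agent.P236EL Vale.Agent.P236KE Vale.Agent.P236K3 Vale.Agent.P236J3 Vale.Agent.P236JR
  Vale.Agent.P236JY Vale.Agent.P236F Vale.Agent.P251.F

namespace JD

variable (E : JD) (s T : Nat)

def cyG (c c' : CN) (l : List Tr) (s' : Nat) : Bool :=
  E.bn s T (grd (Vis c c') (grd (okJ (E.D.L s) T c l) ((reF (E.D.L s') T c c'
    (dlF (E.D.r s) (E.D.L s) (E.D.L s') 0 T T c c' (vcJ (E.D.L s) c' l))).run iz)))
/-- the fast form of `cy` -/
def cyF (c c' : CN) (l : List Tr) : Bool := force (Nat.succ s) (E.cyG s T c c' l)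
def clH (c c' m : CN) (s' : Nat) (p : P) : Bool :=
  grd ((reF (E.D.L s') T c m (cst' p)).run iz) (inF E.D s' T m c' [] (cst' p))
def clG (c c' m : CN) (l : List Tr) (s' : Nat) : Bool :=
  E.bn s T (grd (Vis c c') (grd (Le m c) (grd (Le c' m) (grd (okJ (E.D.L s) T c l)
    ((dlF (E.D.r s) (E.D.L s) (E.D.L s') 0 T T c c' (vcJ (E.D.L s) c' l)).run
      (E.clH T c c' m s'))))))
/-- the fast form of `cl` -/
def clF (c c' m : CN) (l : List Tr) : Bool := force (Nat.succ s) (E.clG s T c c' m l)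
/-- the fast checks -/
def pF : Pr := ⟨E.geF, E.mbF, E.nmF, E.clF⟩
/-- the slow checks -/
def pS : Pr := ⟨E.ge, E.mb, E.nm, E.cl⟩
def htCF (lo n : Nat) : Bool := E.pF.htC s T lo n
def htAF (lo n : Nat) : Bool := E.pF.htA E s T lo n
def exCF (k p : Nat) (l : List Tr) : Bool := E.pF.exC s T k p l
def hgCF (sg : List Sg) : Bool := E.pF.hgC E s T sg
def idMF (c c' : CN) (gh ls : List (List Tr)) : Bool := E.pF.idM s T c c' gh ls
def nxCF (k : Nat) (re gh : List (List Tr)) : Bool := E.pF.nxC s T k re gh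
def zCF (k a : Nat) (g : List Tr) : Bool := E.pF.zC s T k a g

end JD

namespace WxJ

variable [Fact (Nat.Prime 3)] {G : ℕ → Type} [∀ q, Fintype (G q)] [DecidableEq (G 0)]
  {R : Rs 3 K G} {θ : G 0 → G 0 → Cob Laz 1} {E : JD} {ix : ∀ q, G (q + 1) → ℕ}
  {Tm s3 s4 : ℕ} (H : WxJ R θ E ix Tm s3 s4)

include H

theorem bn_congr {s T : ℕ} {b b' : Bool} (h : (∀ q, T ≤ (E.D.L q).T) → b = b') :
    E.bn s T b = E.bn s T b' :=
  grd_congr fun _ => grd_congr fun h1 => h fun q =>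
    (H.cx.hT q).symm ▸ (Nat.le_of_ble_eq_true h1).trans H.hT

theorem geF_eq : E.geF = E.ge := by
  funext s T c c1 cb c2 ls
  exact H.bn_congr fun hT => grd_congr fun h1 => grd_congr fun h2 => grd_congr fun h3 =>
    grd_congr fun _ => genF_eq (H.cx.ok s) (H.cx.ok (s + 1)) (hT s) (hT (s + 1)) h1 h2 h3 _

theorem idF_eq : E.idF = E.id := by
  funext s T c c' ls
  exact H.bn_congr fun hT => grd_congr fun h1 => grd_congr fun _ => H.indF (hT s) h1 ls

theorem mbF_eq : E.mbF = E.mb := by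
  funext s T c c' ls l
  exact H.bn_congr fun hT => grd_congr fun h1 => grd_congr fun _ =>
    inF_eq (H.cx.ok s) (hT s) h1 _ _

theorem nmF_eq : E.nmF = E.nm := by
  funext s T c c' ls l
  exact H.bn_congr fun hT => grd_congr fun h1 => grd_congr fun _ =>
    noF_eq (H.cx.ok s) (hT s) h1 _ _

theorem cyF_eq : E.cyF = E.cy := by
  funext s T c c' l
  rw [JD.cyF, force_eq, JD.cyG, JD.cy, force_eq]
  refine H.bn_congr fun hT => grd_congr fun h1 => grd_congr fun _ => ?_
  rw [dlF_eq (H.cx.ok _) (hT _) h1, reF_eq (H.cx.ok _) (hT _) (Vis.one h1), KD.isZJ, KD.reJ, KD.dlJ]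

theorem clF_eq : E.clF = E.cl := by
  funext s T c c' m l
  rw [JD.clF, force_eq, JD.clG, JD.cl, force_eq]
  refine H.bn_congr fun hT => grd_congr fun h1 => grd_congr fun h2 => grd_congr fun h3 =>
    grd_congr fun _ => ?_
  rw [dlF_eq (H.cx.ok _) (hT _) h1, KD.dlJ]
  refine congrArg _ (funext fun p => ?_)
  rw [JD.clH, reF_eq (H.cx.ok _) (hT _) (one_le h1 h3), inF_eq (H.cx.ok _) (hT _) (vis_le h1 h2),
    KD.isZJ, KD.reJ]

theorem pF_eq : E.pF = E.pS := by
  rw [JD.pF, H.geF_eq, H.mbF_eq, H.nmF_eq, H.clF_eq, JD.pS]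

variable {s T : ℕ}

theorem htCF {lo n : ℕ} (h : E.htCF s T lo n = true) : E.htC s T lo n = true := by
  rw [JD.htCF, H.pF_eq] at h
  exact h

theorem htAF {lo n : ℕ} (h : E.htAF s T lo n = true) : E.htA s T lo n = true := by
  rw [JD.htAF, H.pF_eq] at h
  exact h

theorem exCF {k p : ℕ} {l : List Tr} (h : E.exCF s T k p l = true) : E.exC s T k p l = true := by
  rw [JD.exCF, H.pF_eq] at h
  exact h

theorem hgCF {sg : List Sg} (h : E.hgCF s T sg = true) : E.hgC s T sg = true := by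
  rw [JD.hgCF, H.pF_eq] at h
  exact h

theorem idMF {c c' : CN} {gh ls : List (List Tr)} (h : E.idMF s T c c' gh ls = true) :
    E.idM s T c c' gh ls = true := by
  rw [JD.idMF, H.pF_eq] at h
  exact h

theorem nxCF {k : ℕ} {re gh : List (List Tr)} (h : E.nxCF s T k re gh = true) :
    E.nxC s T k re gh = true := by
  rw [JD.nxCF, H.pF_eq] at h
  exact h

theorem zCF {k a : ℕ} {g : List Tr} (h : E.zCF s T k a g = true) : E.zC s T k a g = true := by
  rw [JD.zCF, H.pF_eq] at h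
  exact h

end WxJ

end Vale.Agent.P236JX

end
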