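import Vale.Agent.P236K3.Bas

/-!
# P236JY / Y : functionals read off rows of bits, one monomial on each chain
-/

noncomputable section

namespace Vale.Agent.P236JY

open MvPolynomial Vale.Agent.P236EL Vale.Agent.P236KE Vale.Agent.P236K2 Vale.Agent.P236K3

/-- the digit at the place `p` -/
def tr (x : P) (p : ℕ) : ℕ := if x.a.testBit p then 1 else if x.b.testBit p then 2 else 0

/-- the weight of the place `j` -/
def wj (j : ℕ) : ℕ := 13 * (j / 3) + 40 * (j % 3)

/-- the monomial of weight `n` at the place `j` -/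
def chn (n j : ℕ) : ℕ →₀ ℕ := mk4 ((n - wj j) % 4) ((n - wj j) / 4) (j / 3) (j % 3)

/-- the polynomial of weight `n` with the digits of `x` from the place `o` on -/
def pyJ (L : Type) [CommRing L] (x : P) (o n : ℕ) : AA L :=
  ∑ j ∈ Finset.range 30,
    if wj j ≤ n ∧ (n - wj j) % 4 < 3 then monomial (chn n j) (tr x (o + j) : L) else 0

/-- the entry number `j` of a row of total degree `W` -/
def rwJ (L : Type) [CommRing L] (x : P) (L' : LD) (W j : ℕ) : AA L :=
  if L'.dg j ≤ W then pyJ L x (L'.pos j) (W - L'.dg j) else 0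

/-- the functional given by the rows `Y` up to the degree `L'.T` and by `y0` above it -/
def yJ (L : Type) [CommRing L] (y0 : (ℕ →₀ ℕ) → AA L) (Y : Fn) (L' : LD) (s3 s4 d j : ℕ)
    (E : ℕ →₀ ℕ) : AA L :=
  if wtM E + d ≤ L'.T then rwJ L (Y.f (cd s3 s4 E)) L' (wtM E + d) j else y0 E

theorem pl_chn (n j : ℕ) : pl (chn n j) = j := by
  rw [pl, chn, mk4_2, mk4_3]
  omega

theorem wt_chn {n j : ℕ} (h : wj j ≤ n) : wtM (chn n j) = n := by
  rw [wtM, chn, weight_wt_mk4]
  rw [wj] at h ⊢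
  omega

theorem chn_0 (n j : ℕ) : chn n j 0 = (n - wj j) % 4 := mk4_0 _ _ _ _

theorem chn_pl {J : ℕ →₀ ℕ} (h : wtM J < 120) (h0 : J 0 < 3) :
    pl J < 30 ∧ wj (pl J) ≤ wtM J ∧ (wtM J - wj (pl J)) % 4 < 3 ∧ chn (wtM J) (pl J) = J := by
  have h1 := (wt_len (J := J) (by omega)).1
  have h2 : pl J / 3 = J 2 := by rw [pl]; omega
  have h3 : pl J % 3 = J 3 := by rw [pl]; omega
  have h4 : wtM J - wj (pl J) = J 0 + 4 * J 1 := by rw [wj, h2, h3]; omega
  refine ⟨by rw [pl]; omega, by rw [wj, h2, h3]; omega, by omega, ?_⟩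
  rw [chn, h2, h3, h4]
  conv_rhs => rw [eq_mk4 (show wtM J < 121 by omega)]
  congr 1 <;> omega

variable {L : Type} [CommRing L]

theorem pyJ_ne {x : P} {o n : ℕ} {J : ℕ →₀ ℕ} (h : coeff J (pyJ L x o n) ≠ 0) :
    wtM J = n ∧ J 0 < 3 := by
  rw [pyJ, coeff_sum] at h
  obtain ⟨j, -, h1⟩ := Finset.exists_ne_zero_of_sum_ne_zero h
  split_ifs at h1 with h2
  · rw [coeff_monomial] at h1
    split_ifs at h1 with h3
    · rw [← h3, chn_0]
      exact ⟨wt_chn h2.1, h2.2⟩
    · exact absurd rfl h1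
  · exact absurd rfl h1

theorem coeff_pyJ (x : P) (o : ℕ) {J : ℕ →₀ ℕ} (h : wtM J < 120) (h0 : J 0 < 3) :
    coeff J (pyJ L x o (wtM J)) = (tr x (o + pl J) : L) := by
  obtain ⟨h1, h2, h3, h4⟩ := chn_pl h h0
  rw [pyJ, coeff_sum, Finset.sum_eq_single (pl J), if_pos ⟨h2, h3⟩, h4, coeff_monomial, if_pos rfl]
  · intro j _ hj
    split_ifs
    · rw [coeff_monomial, if_neg fun h5 => hj (by rw [← h5, pl_chn])]
    · rfl
  · exact fun h5 => absurd (Finset.mem_range.2 h1) h5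

theorem rwJ_ne {x : P} {L' : LD} {W j : ℕ} {J : ℕ →₀ ℕ} (h : coeff J (rwJ L x L' W j) ≠ 0) :
    wtM J + L'.dg j = W ∧ J 0 < 3 := by
  rw [rwJ] at h
  split_ifs at h with h1
  · exact ⟨by have := (pyJ_ne h).1; omega, (pyJ_ne h).2⟩
  · exact absurd rfl h

theorem coeff_rwJ (x : P) {L' : LD} {W j : ℕ} {J : ℕ →₀ ℕ} (hW : W < 120)
    (h : wtM J + L'.dg j = W) (h0 : J 0 < 3) :
    coeff J (rwJ L x L' W j) = (tr x (L'.pos j + pl J) : L) := by
  rw [rwJ, if_pos (by omega), show W - L'.dg j = wtM J by omega, coeff_pyJ x _ (by omega) h0]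

variable {y0 : (ℕ →₀ ℕ) → AA L} {Y : Fn} {L' : LD} {s3 s4 d j : ℕ} {E J : ℕ →₀ ℕ}

theorem yJ_le (h : wtM E + d ≤ L'.T) :
    yJ L y0 Y L' s3 s4 d j E = rwJ L (Y.f (cd s3 s4 E)) L' (wtM E + d) j := if_pos h

theorem yJ_gt (h : L'.T < wtM E + d) : yJ L y0 Y L' s3 s4 d j E = y0 E := if_neg h.not_ge

/-- the coefficients are the digits -/
theorem coeff_yJ (hT : L'.T < 120) (h : wtM E + d ≤ L'.T) (hJ : wtM J + L'.dg j = wtM E + d)
    (h0 : J 0 < 3) : coeff J (yJ L y0 Y L' s3 s4 d j E) =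
      (tr (Y.f (cd s3 s4 E)) (L'.pos j + pl J) : L) := by
  rw [yJ_le h, coeff_rwJ _ (by omega) hJ h0]

theorem yJ_ne (h : wtM E + d ≤ L'.T) (hJ : coeff J (yJ L y0 Y L' s3 s4 d j E) ≠ 0) :
    wtM J + L'.dg j = wtM E + d ∧ J 0 < 3 := rwJ_ne (yJ_le (y0 := y0) h ▸ hJ)

theorem homR_yJ (h0 : HomR 3 ((d : ℤ) - L'.dg j) y0) :
    HomR 3 ((d : ℤ) - L'.dg j) (yJ L y0 Y L' s3 s4 d j) := fun E => by
  by_cases h : wtM E + d ≤ L'.T
  · intro J hJ
    have h1 := (yJ_ne h hJ).1
    rw [show wz 3 = fun i => (wt 3 i : ℤ) from rfl, weight_cast, weight_cast]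
    rw [wtM, wtM] at h1
    omega
  · rw [yJ_gt (not_le.1 h)]
    exact h0 E

/-- removal of the twos at the places of the ones -/
def cl (x : P) : P := ⟨x.a, Nat.xor x.b (Nat.land x.a x.b)⟩

theorem cl_R (x : P) : (cl x).R fun p => (tr x p : K) := fun p => by
  change x.a.testBit p = is1 (tr x p : K) ∧ (x.b ^^^ (x.a &&& x.b)).testBit p = is2 (tr x p : K)
  rw [Nat.testBit_xor, Nat.testBit_and, tr]
  cases x.a.testBit p <;> cases x.b.testBit p <;> decide

theorem tr_R {x : P} {v : V} (h : x.R v) (p : ℕ) : (tr x p : K) = v p := by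
  rw [tr, (h p).1, (h p).2]
  generalize v p = c
  revert c
  decide

theorem tr_and (x : P) (m p : ℕ) : tr (x.and m) p = if m.testBit p then tr x p else 0 := by
  change (if (x.a &&& m).testBit p then 1 else if (x.b &&& m).testBit p then 2 else 0) = _
  rw [Nat.testBit_and, Nat.testBit_and, tr]
  cases m.testBit p <;> simp

def cm2 (a b : Nat) : P := ⟨a, Nat.xor b (Nat.land a b)⟩
def cm1 (b a : Nat) : P := force b (cm2 a)
/-- masking and cleaning -/
def cm (x : P) (m : Nat) : P := force (Nat.land x.a m) (cm1 (Nat.land x.b m))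

theorem cm_R (x : P) (m : ℕ) : (cm x m).R (mk m fun p => (tr x p : K)) := by
  refine (congrArg _ (funext fun p => ?_)).mpr (cl_R (x.and m))
  rw [tr_and, mk_apply, Nat.cast_ite, Nat.cast_zero]

/-- tests on four exponents -/
structure T4 : Type where
  t : Nat → Nat → Nat → Nat → Bool

def gm3 (t : T4) (j ih r : Nat) : Nat :=
  Bool.rec (motive := fun _ => Nat) ih (Nat.lor ih (Nat.shiftLeft (nat_lit 1) j))
    (and (Nat.ble (Nat.mod r (nat_lit 4)) (nat_lit 2))
      (t.t (Nat.mod r (nat_lit 4)) (Nat.div r (nat_lit 4)) (Nat.div j (nat_lit 3))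
        (Nat.mod j (nat_lit 3))))
def gm2 (t : T4) (n j ih s : Nat) : Nat :=
  Bool.rec (motive := fun _ => Nat) ih (force (Nat.sub n s) (gm3 t j ih)) (Nat.ble s n)
def gm1 (t : T4) (n j ih : Nat) : Nat :=
  force (Nat.add (Nat.mul (nat_lit 13) (Nat.div j (nat_lit 3)))
    (Nat.mul (nat_lit 40) (Nat.mod j (nat_lit 3)))) (gm2 t n j ih)
/-- the places of the monomials of weight `n` which pass the test -/
def gm (t : T4) (n : Nat) : Nat := loop (gm1 t n) (nat_lit 30) (nat_lit 0)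
def mj2 (t : T4) (L : LD) (W i ih d : Nat) : Nat :=
  Bool.rec (motive := fun _ => Nat) ih
    (Nat.lor ih (Nat.shiftLeft (force (Nat.sub W d) (gm t)) (L.pos i))) (Nat.ble d W)
def mj1 (t : T4) (L : LD) (W i ih : Nat) : Nat := force (L.dg i) (mj2 t L W i ih)
/-- the places of the monomials of total degree `W` which pass the test -/
def mJ (t : T4) (L : LD) (W : Nat) : Nat := loop (mj1 t L W) L.n (nat_lit 0)

/-- the test at the place `j` -/
def Tj (t : T4) (n j : ℕ) : Prop := (wj j ≤ n ∧ (n - wj j) % 4 < 3) ∧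
  t.t ((n - wj j) % 4) ((n - wj j) / 4) (j / 3) (j % 3) = true

theorem gm_bit (t : T4) (n p : ℕ) : (gm t n).testBit p = true ↔ p < 30 ∧ Tj t n p := by
  change (loop (gm1 t n) 30 0).testBit p = true ↔ _
  induction 30 with
  | zero => simp [loop]
  | succ m ih =>
    change (gm2 t n m (loop (gm1 t n) m 0) (wj m)).testBit p = true ↔ _
    have h1 : (p < m + 1 ∧ Tj t n p) ↔ (p < m ∧ Tj t n p) ∨ (m = p ∧ Tj t n m) :=
      ⟨fun h => (Nat.lt_succ_iff_lt_or_eq.1 h.1).imp (⟨·, h.2⟩) fun e : p = m => ⟨e.symm, e ▸ h.2⟩,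
        fun h => h.elim (fun h => ⟨h.1.trans m.lt_succ_self, h.2⟩)
          fun h => h.1 ▸ ⟨m.lt_succ_self, h.2⟩⟩
    rw [h1, ← ih, gm2]
    cases h2 : Nat.ble (wj m) n with
    | false =>
      exact (or_iff_left fun h => by rw [Nat.ble_eq_true_of_le h.2.1.1] at h2; cases h2).symm
    | true =>
      change (Bool.rec (motive := fun _ => ℕ) _ (_ ||| 1 <<< m) (Nat.ble ((n - wj m) % 4) 2 &&
        t.t ((n - wj m) % 4) ((n - wj m) / 4) (m / 3) (m % 3))).testBit p = true ↔ _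
      have h3 : Tj t n m ↔ (Nat.ble ((n - wj m) % 4) 2 &&
          t.t ((n - wj m) % 4) ((n - wj m) / 4) (m / 3) (m % 3)) = true := by
        rw [Bool.and_eq_true, Nat.ble_eq, Tj, and_iff_right (Nat.le_of_ble_eq_true h2),
          Nat.lt_succ_iff]
      rw [h3]
      cases (Nat.ble ((n - wj m) % 4) 2 && t.t ((n - wj m) % 4) ((n - wj m) / 4) (m / 3) (m % 3))
      · simp
      · simp [Nat.one_shiftLeft, Nat.testBit_two_pow]

theorem mJ_bit (t : T4) (L : LD) (W p : ℕ) : (mJ t L W).testBit p = true ↔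
    ∃ i < L.n, L.dg i ≤ W ∧ ∃ j < 30, p = L.pos i + j ∧ Tj t (W - L.dg i) j := by
  rw [mJ]
  induction L.n with
  | zero => simp [loop]
  | succ m ih =>
    change (mj2 t L W m (loop (mj1 t L W) m 0) (L.dg m)).testBit p = true ↔ _
    rw [Nat.exists_lt_succ_right, ← ih, mj2]
    cases h2 : Nat.ble (L.dg m) W with
    | false =>
      exact (or_iff_left fun h => by rw [Nat.ble_eq_true_of_le h.1] at h2; cases h2).symm
    | true =>
      change (_ ||| gm t (W - L.dg m) <<< L.pos m).testBit p = true ↔ _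
      rw [Nat.testBit_or, Bool.or_eq_true, Nat.testBit_shiftLeft, Bool.and_eq_true, gm_bit,
        decide_eq_true_eq, and_iff_right (Nat.le_of_ble_eq_true h2)]
      exact or_congr_right ⟨fun h => ⟨_, h.2.1, by have := h.1; omega, h.2.2⟩,
        fun ⟨j, h3, h4, h5⟩ => by rw [h4, Nat.add_sub_cancel_left]; exact ⟨by omega, h3, h5⟩⟩

variable {G : Type} [Fintype G] {ix : G → ℕ}

open Classical in
/-- **A cleaned and masked row gives the coordinates.** -/
theorem row_R (hL : L'.Ok ix) {S : (ℕ →₀ ℕ) → Prop} {q : (G → A) →+ V}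
    (hq : ∀ w J c, q (Pi.single w (monomial J c)) =
      if S J then Pi.single (L'.pos (ix w) + pl J) c else 0) {t : T4}
    (ht : ∀ a n c e, a < 3 → (t.t a n c e = true ↔ S (mk4 a n c e))) (x : P) {W : ℕ}
    (hW : W ≤ L'.T) : (cm x (mJ t L' W)).R (q fun w => rwJ K x L' W (ix w)) := by
  refine (congrArg _ ?_).mpr (cm_R x _)
  have h1 : ∀ w, q (Pi.single w (rwJ K x L' W (ix w))) = ∑ j ∈ Finset.range 30,
      if L'.dg (ix w) ≤ W ∧ Tj t (W - L'.dg (ix w)) j then
        Pi.single (L'.pos (ix w) + j) (tr x (L'.pos (ix w) + j) : K) else 0 := fun w => by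
    rw [rwJ]
    split_ifs with h
    · change q (AddMonoidHom.single (fun _ => A) w _) = _
      rw [pyJ, map_sum, map_sum]
      refine Finset.sum_congr rfl fun j _ => ?_
      split_ifs with h2 h3 h3
      · exact (hq _ _ _).trans ((if_pos ((ht _ _ _ _ h2.2).1 h3.2.2)).trans (by rw [pl_chn]))
      · exact (hq _ _ _).trans (if_neg fun h4 => h3 ⟨h, h2, (ht _ _ _ _ h2.2).2 h4⟩)
      · exact absurd h3.2.1 h2
      · rw [map_zero, map_zero]
    · rw [Pi.single_zero, map_zero, Finset.sum_eq_zero fun j _ => if_neg fun h2 => h h2.1]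
  have h2 : ∀ i j, L'.dg i ≤ W ∧ Tj t (W - L'.dg i) j → j ≤ L'.sz i := fun i j h => by
    have h3 := h.2.1.1
    have h4 := h.1
    have h5 := hL.hT
    rw [wj] at h3
    rw [LD.sz]
    omega
  rw [← Finset.univ_sum_single fun w => rwJ K x L' W (ix w), map_sum]
  funext p
  simp only [h1, mk_apply, Finset.sum_apply]
  split_ifs with h
  · obtain ⟨i, hi, h3, j, hj, rfl, h4⟩ := (mJ_bit _ _ _ _).1 h
    obtain ⟨w, rfl⟩ := hL.sur i hi
    rw [Finset.sum_eq_single w, Finset.sum_eq_single j, if_pos ⟨h3, h4⟩, Pi.single_eq_same]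
    · intro j' _ h5
      split_ifs
      · exact Pi.single_eq_of_ne (by omega) _
      · rfl
    · exact fun h5 => absurd (Finset.mem_range.2 hj) h5
    · refine fun w' _ h5 => Finset.sum_eq_zero fun j' _ => ?_
      split_ifs with h6
      · exact Pi.single_eq_of_ne (fun h7 => h5 (hL.inj (hL.disj _ (hL.lt _) _ hi _ (h2 _ _ h6) _
          (h2 _ _ ⟨h3, h4⟩) h7.symm))) _
      · rfl
    · exact fun h5 => absurd (Finset.mem_univ w) h5
  · refine Finset.sum_eq_zero fun w _ => Finset.sum_eq_zero fun j hj => ?_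
    split_ifs with h3
    · exact Pi.single_eq_of_ne (fun h4 => h ((mJ_bit _ _ _ _).2
        ⟨_, hL.lt w, h3.1, j, Finset.mem_range.1 hj, h4, h3.2⟩)) _
    · rfl

end Vale.Agent.P236JY

end
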