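import Vale.Agent.P236JY.Rd
import Vale.Agent.P236JD.Tab
import Vale.Agent.P236KE.S90.Def

/-!
# P236JY / Sph : the lifted resolution of the unit
-/

noncomputable section

namespace Vale.Agent.P236JY

open MvPolynomial Vale.Agent.P236EL Vale.Agent.P236KE Vale.Agent.P236K3 Vale.Agent.P236KE.S90

/-- the table of the generator `i` in degree `q` -/
def hD (q i : Nat) : DLL := (Vale.Agent.P236JD.HH.getD q []).getD i DLL.nil
def yH2 (q i N : Nat) : Fn := rd (hD q i) N (nat_lit 23)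
def yH1 (q i q' : Nat) : Fn := force (sL sph (nat_lit 90) q').N (yH2 q i)
/-- the rows -/
def yH (q i : Nat) : Fn := force (Nat.succ q) (yH1 q i)

theorem yH_eq (q i : ℕ) : yH q i = rd (hD q i) (sL sph 90 (q + 1)).N 23 := by
  rw [yH, force_eq, yH1, force_eq, yH2]

theorem sph_s3 : sph.s3 = 23 := by decide +kernel
theorem sph_s4 : sph.s4 = 161 := by decide +kernel
theorem sph_k3 : 13 + 384 * sph.s3 = nat_lit 8845 := by decide +kernel
theorem sph_k4 : 40 + 384 * sph.s4 = nat_lit 61864 := by decide +kernel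

/-- the digits of the rows -/
theorem tr_yH (q i : ℕ) {F : ℕ →₀ ℕ} (h : wtM F ≤ 90) (p : ℕ) :
    tr ((yH q i).f (cd sph.s3 sph.s4 F)) p =
      tr ⟨dN (hD q i) (F 2 + 7 * F 3) (F 0 + 4 * F 1), dO (hD q i) (F 2 + 7 * F 3) (F 0 + 4 * F 1)⟩
        ((sL sph 90 (q + 1)).N * F 1 + p) := by
  rw [yH_eq, sph_s3, sph_s4, rd_f _ _ h, tr_shr]

def cq2 (q i : Nat) : Bool := cgr sph (nat_lit 90) q i (yH q i) (nat_lit 8845) (nat_lit 61864)
/-- the comparison for the generators `a, ..., a + n` in degree `q` -/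
def cgA (q a n : Nat) : Bool := am5 ⟨cq2 q⟩ n a

theorem am5_spec {t : T1} {a n i : ℕ} (h : am5 t n a = true) (h1 : a ≤ i) (h2 : i ≤ a + n) :
    t.t i = true := by
  obtain ⟨j, rfl⟩ := Nat.exists_eq_add_of_le h1
  exact al_spec (t := ⟨am6 t a⟩) h (Nat.le_of_add_le_add_left h2)

theorem cgA_spec {q a n i : ℕ} (h : cgA q a n = true) (h1 : a ≤ i) (h2 : i ≤ a + n) :
    cq2 q i = true := by
  rw [cgA] at h
  exact am5_spec h h1 h2

variable [Fact (Nat.Prime 3)]

/-- **the lifted resolution** -/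
def rJ : Rs 3 K sph.G := rsJ sph 90 yH

theorem rJ_diff {q : ℕ} (w : sph.G (q + 1)) (h : cq2 q w = true) (w' : sph.G (q + 2))
    (E : ℕ →₀ ℕ) : rJ.y q w w' E - (sph.rs K).y q w w' E ∈ I ^ 3 :=
  rsJ_diff (T := 90) (Y := yH) (by decide) w (by rw [sph_k3, sph_k4]; exact h) w' E

end Vale.Agent.P236JY

end
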