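import Vale.Agent.P236JY.Sph

/-!
# P236JY / comparison of the short parts (generated)
-/

namespace Vale.Agent.P236JY

theorem c0_0 : cgA 0 0 0 = true := by decide +kernel
theorem g0 (i : ℕ) (h : i < 1) : cq2 0 i = true :=
  cgA_spec c0_0 (by omega) (by omega)

theorem c1_0 : cgA 1 0 1 = true := by decide +kernel
theorem c1_2 : cgA 1 2 2 = true := by decide +kernel
theorem g1 (i : ℕ) (h : i < 5) : cq2 1 i = true :=
  if h0 : i ≤ 1 then cgA_spec c1_0 (by omega) (by omega) else
  cgA_spec c1_2 (by omega) (by omega)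

theorem c2_0 : cgA 2 0 1 = true := by decide +kernel
theorem c2_2 : cgA 2 2 2 = true := by decide +kernel
theorem c2_5 : cgA 2 5 10 = true := by decide +kernel
theorem g2 (i : ℕ) (h : i < 16) : cq2 2 i = true :=
  if h0 : i ≤ 1 then cgA_spec c2_0 (by omega) (by omega) else
  if h1 : i ≤ 4 then cgA_spec c2_2 (by omega) (by omega) else
  cgA_spec c2_5 (by omega) (by omega)

end Vale.Agent.P236JY
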