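import Vale.Agent.P236JY.EmF

/-!
# P236JY / Ch : chains of checks with long steps
-/

noncomputable section

namespace Vale.Agent.P236JX

open Vale.Agent.P236EL Vale.Agent.P236KE Vale.Agent.P236K3 Vale.Agent.P236J3 Vale.Agent.P236JR
  Vale.Agent.P236JY Vale.Agent.P236F Vale.Agent.P251.F

namespace JD

variable (E : JD) (s T : Nat)

def cg2 (ih : Nat → Bool) (k' b k d : Nat) : Bool :=
  grd (E.geF s T [(nat_lit 0, k)] [(nat_lit 3, d)] [(nat_lit 0, b)] [(nat_lit 0, k')] []) (ih k')
def cg1 (x : Nat × Nat) (_ : CN) (ih : Nat → Bool) (k : Nat) : Bool :=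
  force (Nat.add k (nat_lit 3)) (E.cg2 s T ih x.1 x.2 k)
def cg0 (k : Nat) : Bool := E.em s T [(nat_lit 0, k)]
/-- there are no classes from the level `k` on; the steps are pairs (next level, source level) -/
def chG (l : CN) : Nat → Bool :=
  List.rec (motive := fun _ => Nat → Bool) (E.cg0 s T) (E.cg1 s T) l
def ct2 (m : Nat) (ih : Nat → Bool) (a' b a d : Nat) : Bool := grd (Nat.ble m b)
  (grd (E.geF s T [(nat_lit 3, a)] [(nat_lit 6, d)] [(nat_lit 0, b)] [(nat_lit 3, a')] []) (ih a'))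
def ct1 (m : Nat) (x : Nat × Nat) (_ : CN) (ih : Nat → Bool) (a : Nat) : Bool :=
  force (Nat.add a (nat_lit 3)) (E.ct2 s T m ih x.1 x.2 a)
def ct0 (m a : Nat) : Bool := grd (Nat.ble m a) (E.em s T [(nat_lit 3, a)])
/-- the same for multiples of the cube of `v_1`, with sources of level at least `m` -/
def chT (m : Nat) (l : CN) : Nat → Bool :=
  List.rec (motive := fun _ => Nat → Bool) (E.ct0 s T m) (E.ct1 s T m) l
def eg2 (k m : Nat) (μ : List Tr) (l : CN) (s' d : Nat) : Bool :=
  grd (E.clF s T [(nat_lit 0, k)] [(nat_lit 3, d)] [(nat_lit 0, m)] μ) (E.chT s' T m l d)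
def eg1 (k m : Nat) (μ : List Tr) (l : CN) (s' : Nat) : Bool :=
  force (Nat.add k (nat_lit 3)) (E.eg2 s T k m μ l s')
/-- there is a class with the given terms in the levels from `k` to `m` -/
def exG (k m : Nat) (μ : List Tr) (l : CN) : Bool := force (Nat.succ s) (E.eg1 s T k m μ l)

end JD

namespace WxJ

variable [Fact (Nat.Prime 3)] {G : ℕ → Type} [∀ q, Fintype (G q)] [DecidableEq (G 0)]
  {R : Rs 3 K G} {θ : G 0 → G 0 → Cob Laz 1} {E : JD} {ix : ∀ q, G (q + 1) → ℕ}
  {Tm s3 s4 : ℕ} (H : WxJ R θ E ix Tm s3 s4) {s T k m : ℕ} {l n : CN} {μ : List Tr}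

include H

/-- **no classes of high level** -/
theorem chG {𝒵 : AddSubgroup (G 0 → Cob Laz s)} (h : E.chG s T l k = true) :
    HG R θ T [(0, k)] 𝒵 := by
  induction l generalizing k with
  | nil => exact H.hgEm h
  | cons x l ih =>
    change E.cg1 s T x l (E.chG s T l) k = true at h
    rw [JD.cg1, force_eq, JD.cg2] at h
    exact H.hgStep _ _ [] (H.geF (grd_spec h).1) .nil (ih (grd_spec h).2)

theorem chT (h : E.chT s T m l k = true) : HT R θ s T [(3, k)] [(0, m)] n := by
  induction l generalizing k with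
  | nil => exact H.htEm (grd_spec h).2 (Le.refl _) (by
      simpa [Le, inU_one] using le_max_of_le_right (Nat.le_of_ble_eq_true (grd_spec h).1))
  | cons x l ih =>
    change E.ct1 s T m x l (E.chT s T m l) k = true at h
    rw [JD.ct1, force_eq, JD.ct2] at h
    obtain ⟨h1, h2⟩ := grd_spec h
    exact H.htStep _ _ (H.geF (grd_spec h2).1)
      (by simpa [Le, inU_one] using Nat.le_of_ble_eq_true h1) (ih (grd_spec h2).2)

/-- **existence of a class** -/
theorem exG (h : E.exG s T k m μ l = true) : ∃ x, RL R θ ix s T [(0, k)] [(0, m)] x μ := by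
  rw [JD.exG, force_eq, JD.eg1, force_eq, JD.eg2] at h
  have h1 := (grd_spec h).1
  rw [H.clF_eq] at h1
  have h2 := h1
  rw [JD.cl, force_eq] at h2
  exact H.exC (H.exN _ _ _ h1 (grd_spec (grd_spec (H.bn h2).2.2.2).2).1 (Le.refl _) (Le.refl _)
    (H.chT (grd_spec h).2))

end WxJ

end Vale.Agent.P236JX

end
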