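import Vale.Agent.P236JY.FsP

/-!
# P236JY / Fs : the faster programs compute the same values
-/

noncomputable section

namespace Vale.Agent.P236JY

open Vale.Agent.P236KE Vale.Agent.P236K2 Vale.Agent.P236K3 Vale.Agent.P236J3 Vale.Agent.P236JR

theorem lt_tp (c : CL) (m b e : ℕ) : e < tp c (m + 4) (m + 3 + b) ↔
    4 * e ≤ m ∧ inU c (m - 4 * e) (m - 4 * e + e + b) = true := by
  rw [inU_iff]
  induction c with
  | nil => simp [tp]
  | cons x c ih =>
    change e < tp c (m + 4) (m + 3 + b) + ((m + 4 - x.1) / 4 - ((m + 4 - x.1) / 4 -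
      (m + 3 + b - x.2) / 3) - tp c (m + 4) (m + 3 + b)) ↔ _
    rw [List.exists_mem_cons_iff, and_or_left, ← ih]
    omega

theorem loop_one {α : Type} {g : ℕ → α → α} {n t : ℕ} (a : α)
    (h : ∀ e < n, e + 1 ≠ t → ∀ b, g e b = b) (ht : t ≤ n) :
    loop g n a = Nat.rec (motive := fun _ => α) a (fun e _ => g e a) t := by
  induction n with
  | zero => rw [Nat.le_zero.1 ht]; rfl
  | succ n ih =>
    change g n (loop g n a) = _
    by_cases h1 : n + 1 = t
    · subst h1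
      exact congrArg (g n) (loop_ind (Q := (· = a)) rfl fun j hj b hb =>
        (h j (by omega) (by omega) b).trans hb)
    · rw [h n n.lt_succ_self h1]
      exact ih (fun e he => h e (by omega)) (by omega)

/-- the test only holds for the last monomial in the ideal -/
structure Lst (c : CL) (p : ℕ → ℕ → Bool) : Prop where
  mem : ∀ j l, p j l = true → inU c j l = true
  top : ∀ j l, j ≤ l → inU c j l = true → p (j + 4) (l + 3) = false

variable {c c' c1 c2 cb : CL}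

theorem lst_wn (h : Vis c c' = true) : Lst c (wn c c') :=
  ⟨fun _ _ h1 => (wn_iff.1 h1).1, fun _ _ h1 h2 => Bool.eq_false_iff.2 fun h3 =>
    (wn_iff.1 h3).2 (inU_mono (Vis.inU h h2 h1) (Nat.le_succ _) le_rfl)⟩

theorem lst_pk (h : Vis c c1 = true) (hb : Le c cb = true) (h' : Vis cb c2 = true) :
    Lst c (pkJ c c1 c2) :=
  ⟨fun _ _ h1 => (pkJ_iff.1 h1).1, fun _ _ h1 h2 => Bool.eq_false_iff.2 fun h3 =>
    (pkJ_iff.1 h3).2 ⟨inU_mono (Vis.inU h h2 h1) (Nat.le_succ _) le_rfl,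
      inU_mono (Vis.inU h' (Le.inU hb h2 h1) h1) (Nat.le_succ _) le_rfl⟩⟩

theorem enumW_eq {α : Type} {p : ℕ → ℕ → Bool} (h : Lst c p) (f : FE α) :
    enumW c p f = enumA p f := by
  have h6 : ew6 c p f = ea6 p f := by
    funext i e4 e3 a m
    refine (loop_one (g := ea7 p f i e4 e3 m) (n := m / 4 + 1)
      (t := tp c (m + 4) (m + 3 + (e3 + e4))) a (fun e he h1 b => ?_) ?_).symm
    · change Bool.rec (motive := fun _ => α) b _ (p (m - 4 * e) (m - 4 * e + e + (e3 + e4))) = b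
      cases h2 : p (m - 4 * e) (m - 4 * e + e + (e3 + e4)) with
      | false => rfl
      | true =>
        have h3 := (lt_tp c m (e3 + e4) e).2 ⟨by omega, h.mem _ _ h2⟩
        have h4 := (lt_tp c m (e3 + e4) (e + 1)).1 (by omega)
        have h5 := h.top _ _ (by omega) h4.2
        rw [show m - 4 * (e + 1) + 4 = m - 4 * e by omega, show m - 4 * (e + 1) + (e + 1) +
          (e3 + e4) + 3 = m - 4 * e + e + (e3 + e4) by omega, h2] at h5
        cases h5
    · by_contra h1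
      have := ((lt_tp c m (e3 + e4) (m / 4 + 1)).1 (by omega)).1
      omega
  have h5 : ew5 c p f = ea5 p f := by funext i e4 m e3 a; rw [ew5, h6, ea5]
  have h4 : ew4 c p f = ea4 p f := by funext i e4 a m; rw [ew4, h5, ea4]
  have h3 : ew3 c p f = ea3 p f := by funext i m e4 a; rw [ew3, h4, ea3]
  have h2 : ew2 c p f = ea2 p f := by funext i a m; rw [ew2, h3, ea2]
  have h1 : ew1 c p f = ea1 p f := by funext T i a d; rw [ew1, h2, ea1]
  have h0 : ew0 c p f = ea0 p f := by funext L T i a; rw [ew0, h1, ea0]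
  funext L T a
  rw [enumW, h0, enumA]

/-! ### masks -/

theorem gk_bit (u v n p : ℕ) :
    (gk u v n).testBit p = true ↔ p < 30 ∧ u * (p / 3) + v * (p % 3) < n := by
  change (loop (gk1 u v n) 30 0).testBit p = true ↔ _
  induction 30 with
  | zero => simp [loop]
  | succ m ih =>
    change (Bool.rec (motive := fun _ => ℕ) (loop (gk1 u v n) m 0 ||| 1 <<< m)
      (loop (gk1 u v n) m 0) (Nat.ble n (u * (m / 3) + v * (m % 3)))).testBit p = true ↔ _
    cases h : Nat.ble n (u * (m / 3) + v * (m % 3)) with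
    | false =>
      have h1 : ¬ n ≤ _ := fun h2 => by rw [Nat.ble_eq_true_of_le h2] at h; cases h
      rw [Nat.testBit_or, Bool.or_eq_true, ih, Nat.one_shiftLeft, Nat.testBit_two_pow,
        decide_eq_true_iff]
      exact ⟨fun h2 => h2.elim (fun h3 => ⟨by omega, h3.2⟩) fun h3 => h3 ▸ ⟨by omega, by omega⟩,
        fun h2 => (Nat.lt_succ_iff_lt_or_eq.1 h2.1).imp (⟨·, h2.2⟩) Eq.symm⟩
    | true =>
      have h1 := Nat.le_of_ble_eq_true h
      refine ih.trans ⟨fun h2 => ⟨by omega, h2.2⟩, fun h2 => ⟨?_, h2.2⟩⟩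
      rcases Nat.lt_succ_iff_lt_or_eq.1 h2.1 with h3 | rfl
      · exact h3
      · omega

/-- the place `p` is the place `j` of the generator `i` -/
def Ps (L : LD) (p i j : ℕ) : Prop :=
  i < L.n ∧ j < 30 ∧ L.dg i + (13 * (j / 3) + 40 * (j % 3)) ≤ L.T ∧ p = L.pos i + j

/-- the meaning of a mask -/
def Is (L : LD) (m : ℕ) (φ : ℕ → ℕ → Prop) : Prop :=
  ∀ p, m.testBit p = true ↔ ∃ i j, Ps L p i j ∧ φ i j

variable {G : Type} {L : LD} {ix : G → ℕ} {m m' T : ℕ} {φ φ' : ℕ → ℕ → Prop}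

theorem Ps.uniq (hL : L.Ok ix) {p i j i' j' : ℕ} (h : Ps L p i j) (h' : Ps L p i' j') :
    i = i' ∧ j = j' := by
  obtain ⟨h1, h2, h3, h4⟩ := h
  obtain ⟨h5, h6, h7, h8⟩ := h'
  have h9 := hL.hT
  obtain rfl := hL.disj i h1 i' h5 j (by rw [LD.sz]; omega) j' (by rw [LD.sz]; omega)
    (h4.symm.trans h8)
  exact ⟨rfl, by omega⟩

theorem is_mu (u v : ℕ) (L : LD) (y : ℕ) :
    Is L (mu u v L y) fun i j => L.dg i + (u * (j / 3) + v * (j % 3)) < y := fun p => by
  simp only [mu, Ps, and_assoc, exists_and_left]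
  induction L.n with
  | zero => simp [loop]
  | succ n ih =>
    change (loop (mu1 u v L y) n 0 ||| (gk u v (y - L.dg n) &&& gk 13 40 (L.T + 1 - L.dg n)) <<<
      L.pos n).testBit p = true ↔ _
    rw [Nat.testBit_or, Bool.or_eq_true, Nat.exists_lt_succ_right]
    refine or_congr ih ?_
    rw [Nat.testBit_shiftLeft, Nat.testBit_and, Bool.and_eq_true, Bool.and_eq_true, gk_bit, gk_bit,
      decide_eq_true_iff]
    exact ⟨fun ⟨h1, h2, h3⟩ => ⟨p - L.pos n, h2.1, by omega, by omega, by omega⟩,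
      fun ⟨j, h1, h2, h3, h4⟩ => by
        rw [h3, Nat.add_sub_cancel_left]
        exact ⟨by omega, ⟨h1, by omega⟩, h1, by omega⟩⟩

theorem Is.congr (h : Is L m φ) (h' : ∀ i j, φ i j ↔ φ' i j) : Is L m φ' := fun p =>
  (h p).trans (exists₂_congr fun i j => and_congr_right fun _ => h' i j)

theorem is_zero : Is L 0 fun _ _ => False := fun p => by simp

theorem Is.lor (h : Is L m φ) (h' : Is L m' φ') :
    Is L (Nat.lor m m') fun i j => φ i j ∨ φ' i j := fun p => by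
  change (m ||| m').testBit p = true ↔ _
  rw [Nat.testBit_or, Bool.or_eq_true, h p, h' p]
  simp only [and_or_left, exists_or]

theorem Is.land (hL : L.Ok ix) (h : Is L m φ) (h' : Is L m' φ') :
    Is L (Nat.land m m') fun i j => φ i j ∧ φ' i j := fun p => by
  change (m &&& m').testBit p = true ↔ _
  rw [Nat.testBit_and, Bool.and_eq_true, h p, h' p]
  refine ⟨fun ⟨⟨i, j, h1, h2⟩, i', j', h3, h4⟩ => ?_,
    fun ⟨i, j, h1, h2⟩ => ⟨⟨i, j, h1, h2.1⟩, i, j, h1, h2.2⟩⟩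
  obtain ⟨rfl, rfl⟩ := h1.uniq hL h3
  exact ⟨i, j, h1, h2, h4⟩

theorem Is.diff (hL : L.Ok ix) (h : Is L m φ) (h' : Is L m' φ') :
    Is L (Nat.xor m (Nat.land m m')) fun i j => φ i j ∧ ¬ φ' i j := fun p => by
  change (m ^^^ (m &&& m')).testBit p = true ↔ _
  have h0 : ∀ a b : Bool, (a ^^ (a && b)) = true ↔ a = true ∧ ¬ b = true := by decide
  rw [Nat.testBit_xor, Nat.testBit_and, h0, h p, h' p]
  refine ⟨fun ⟨⟨i, j, h1, h2⟩, h3⟩ => ⟨i, j, h1, h2, fun h4 => h3 ⟨i, j, h1, h4⟩⟩,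
    fun ⟨i, j, h1, h2⟩ => ⟨⟨i, j, h1, h2.1⟩, fun ⟨i', j', h3, h4⟩ => ?_⟩⟩
  obtain ⟨rfl, rfl⟩ := h1.uniq hL h3
  exact h2.2 h4

theorem is_loop {g : ℕ → ℕ} {ψ : ℕ → ℕ → ℕ → Prop} (h : ∀ e, Is L (g e) (ψ e)) (n : ℕ) :
    Is L (loop (fun e ih => Nat.lor ih (g e)) n 0) fun i j => ∃ e < n, ψ e i j := by
  induction n with
  | zero => exact is_zero.congr fun _ _ => by simp
  | succ n ih => exact (ih.lor (h n)).congr fun _ _ => Nat.exists_lt_succ_right.symm

variable (L T) in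
/-- the exponent of `v_1` -/
def fA (e a i j : ℕ) : Prop := L.dg i + (13 * (j / 3) + 40 * (j % 3)) < T + 1 - (a + 4 * e)
variable (L T) in
/-- the length -/
def fB (e b i j : ℕ) : Prop := L.dg i + (12 * (j / 3) + 39 * (j % 3)) < T + 1 - (b + 3 * e)
variable (L T) in
/-- the ideal -/
def fG (c : CL) (e i j : ℕ) : Prop := ∃ x ∈ c, fA L T e x.1 i j ∧ fB L T e x.2 i j

theorem is_mA (e a : ℕ) : Is L (mA L T e a) (fA L T e a) := is_mu 13 40 L _
theorem is_mB (e b : ℕ) : Is L (mB L T e b) (fB L T e b) := is_mu 12 39 L _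

theorem is_mG (hL : L.Ok ix) (c : CL) (e : ℕ) : Is L (mG L T c e) (fG L T c e) := by
  induction c with
  | nil => exact is_zero.congr fun _ _ => by simp [fG]
  | cons x c ih =>
    exact (ih.lor ((is_mA e x.1).land hL (is_mB e x.2))).congr fun _ _ => by
      rw [fG, fG, List.exists_mem_cons_iff, or_comm]

theorem is_mW (hL : L.Ok ix) (e : ℕ) :
    Is L (mW L T c c' e) fun i j => fG L T c e i j ∧ ¬ fG L T c' e i j :=
  (is_mG hL c e).diff hL (is_mG hL c' e)

variable (L T) in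
/-- the monomial at a place -/
def mo (e i j : ℕ) : Mo :=
  mk4 (T - (L.dg i + (13 * (j / 3) + 40 * (j % 3)) + 4 * e)) e (j / 3) (j % 3)

theorem mo_spec {e i j : ℕ} (h : fA L T e 0 i j) : wtM (mo L T e i j) + L.dg i = T ∧
    pl (mo L T e i j) = j ∧ (∀ a, fA L T e a i j ↔ a ≤ mo L T e i j 0) ∧
    (∀ b, fB L T e b i j ↔ b ≤ lenM (mo L T e i j)) ∧
    ∀ c, fG L T c e i j ↔ InU c (mo L T e i j) := by
  have h1 : ∀ a, fA L T e a i j ↔ a ≤ mo L T e i j 0 := fun a => by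
    rw [fA] at h ⊢
    rw [mo, mk4_0]
    omega
  have h2 : ∀ b, fB L T e b i j ↔ b ≤ lenM (mo L T e i j) := fun b => by
    rw [fA] at h
    rw [fB, mo, lenM, weight_mk4]
    omega
  refine ⟨?_, ?_, h1, h2, fun c => ?_⟩
  · rw [fA] at h
    rw [mo, wtM, weight_wt_mk4]
    omega
  · rw [mo, pl, mk4_2, mk4_3]
    omega
  · simp only [fG, InU, inU_iff, h1, h2]

theorem fG.zero {e i j : ℕ} (h : fG L T c e i j) : fA L T e 0 i j := by
  obtain ⟨x, -, h1, -⟩ := h
  rw [fA] at h1 ⊢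
  omega

/-- **the masks agree** -/
theorem mskF_eq (hL : L.Ok ix) (hT : T ≤ L.T) (hV : One (Wn c c')) :
    mskF L T c c' = mskJ L T c c' := by
  funext j l
  have h0 := hL.hT
  have h1 : Is L (mskF L T c c' j l) _ :=
    (is_loop (fun e => (is_mW (T := T) (c := c) (c' := c') hL e).land hL (is_mA e j))
      (T / 4 + 1)).land hL
    (is_loop (fun e => (is_mW (T := T) (c := c) (c' := c') hL e).land hL (is_mB e l)) (T / 4 + 1))
  refine Nat.eq_of_testBit_eq fun p => Bool.eq_iff_iff.2 ?_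
  rw [h1 p, mskJ_bit (by omega)]
  constructor
  · rintro ⟨i, k, h2, ⟨e, -, ⟨h3, h4⟩, h5⟩, e', -, ⟨h6, h7⟩, h8⟩
    obtain ⟨a1, a2, a3, a4, a5⟩ := mo_spec h3.zero
    obtain ⟨b1, b2, -, b4, b5⟩ := mo_spec h6.zero
    have h9 : Wn c c' (mo L T e i k) := ⟨(a5 c).1 h3, mt (a5 c').2 h4⟩
    have h10 := one_eq hV hL hT h2.1 h2.1 a1 b1 (by rw [a2, b2]) h9
      ⟨(b5 c).1 h6, mt (b5 c').2 h7⟩
    exact ⟨i, h2.1, _, a1, h9, (a3 j).1 h5, h10 ▸ (b4 l).1 h8, by rw [a2]; exact h2.2.2.2⟩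
  · rintro ⟨i, hi, J, h2, h3, h4, h5, rfl⟩
    have h6 := (wt_len (J := J) (by omega)).1
    have h7 : pl J / 3 = J 2 := by rw [pl]; omega
    have h8 : pl J % 3 = J 3 := by rw [pl]; omega
    have h9 : fA L T (J 1) 0 i (pl J) := by rw [fA, h7, h8]; omega
    have h10 : mo L T (J 1) i (pl J) = J := by
      rw [mo, h7, h8]
      conv_rhs => rw [eq_mk4 (show wtM J < 121 by omega)]
      congr 1
      omega
    obtain ⟨-, -, a3, a4, a5⟩ := mo_spec h9
    rw [h10] at a3 a4 a5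
    have h11 : J 1 < T / 4 + 1 := by omega
    have h12 := And.intro ((a5 c).2 h3.1) (mt (a5 c').1 h3.2)
    exact ⟨i, pl J, ⟨hi, by rw [pl]; omega, by rw [h7, h8]; omega, rfl⟩,
      ⟨_, h11, h12, (a3 j).2 h4⟩, _, h11, h12, (a4 l).2 h5⟩

variable {r : Rw} {L₀ : LD}

theorem rowsF_eq (hL : L.Ok ix) (hT : T ≤ L.T) (hV : Vis c c' = true) :
    rowsF r L₀ L T c c' = rowsJ r L₀ L T c c' := by
  have h : rf1 r L T c c' = rj1 r L T c c' := by
    funext O i j l e2 e3 e4 acc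
    rw [rf1, mskF_eq hL hT (Vis.one hV), rj1]
  funext rest O
  rw [rowsF, enumW_eq (lst_wn hV), h, rowsJ]

theorem rowsKF_eq (hL : L.Ok ix) (hT : T ≤ L.T) (hV : Vis c c1 = true) (hb : Le c cb = true)
    (hV' : Vis cb c2 = true) : rowsKF r L₀ L T c c1 c2 = rowsKJ r L₀ L T c c1 c2 := by
  have h : rkf r L₀ L T c c1 c2 = rk1 r L₀ L T c c1 c2 := by
    funext O i j l e2 e3 e4 acc
    rw [rkf, mskF_eq hL hT (Vis.one hV), rk1]
  funext O
  rw [rowsKF, enumW_eq (lst_pk hV hb hV'), h, rowsKJ]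

variable {D : KD} {s : ℕ}

theorem bdF_eq (hL : (D.L s).Ok ix) (hT : T ≤ (D.L s).T) (hV : Vis c c' = true) :
    bdF D s T c c' = D.bdJ s T c c' := by
  funext l
  rcases s with _ | q
  · rfl
  · funext O
    change bf1 D (q + 1) T c c' l q O = D.bj1 (q + 1) T c c' l q O
    rw [bf1, lBF, rowsF_eq hL hT hV, KD.bj1, lBJ]

theorem genF_eq {G' : Type} {ix' : G' → ℕ} (hL : (D.L s).Ok ix) (hL' : (D.L (s + 1)).Ok ix')
    (hT : T ≤ (D.L s).T) (hT' : T ≤ (D.L (s + 1)).T) (hV : Vis c c1 = true) (hb : Le c cb = true)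
    (hV' : Vis cb c2 = true) (l : List VC) :
    genF D s T c c1 cb c2 l = D.genJ s T c c1 cb c2 l := by
  have h : gf2 D s T c c1 cb c2 (s + 1) = D.gj2 s T c c1 cb c2 (s + 1) := by
    funext l
    rw [gf2, rowsKF_eq hL' hT' hV hb hV', bdF_eq hL hT hV', KD.gj2]
  rw [genF, force_eq, gf1, KD.genJ, force_eq, KD.gj1]
  exact congrArg _ h

end Vale.Agent.P236JY

end
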