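import Vale.Agent.P236J3.Top

/-!
# P236JY / FsP : faster enumeration and faster masks (programs)
-/

noncomputable section

namespace Vale.Agent.P236JY

open Vale.Agent.P236KE Vale.Agent.P236K3 Vale.Agent.P236J3

section enum

variable {α : Type}

def tp3 (ih z : Nat) : Nat := Nat.add ih (Nat.sub z ih)
def tp2 (ih x y : Nat) : Nat := force (Nat.sub x (Nat.sub x y)) (tp3 ih)
def tp1 (m s : Nat) (x : Nat × Nat) (_ : CL) (ih : Nat) : Nat :=
  force (Nat.div (Nat.sub m x.1) (nat_lit 4)) fun u => tp2 ih u (Nat.div (Nat.sub s x.2) (nat_lit 3))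
/-- the number of monomials of a chain which lie in the ideal -/
def tp (c : CL) (m s : Nat) : Nat := List.rec (motive := fun _ => Nat) (nat_lit 0) (tp1 m s) c

def ew9 (p : Nat → Nat → Bool) (f : FE α) (i e4 e3 m : Nat) (a : α) (e2 : Nat) (_ : α) : α :=
  ea7 p f i e4 e3 m e2 a
def ew8 (c : CL) (p : Nat → Nat → Bool) (f : FE α) (i e4 e3 : Nat) (a : α) (m m' s : Nat) : α :=
  Nat.rec (motive := fun _ => α) a (ew9 p f i e4 e3 m a) (tp c m' s)
def ew7 (c : CL) (p : Nat → Nat → Bool) (f : FE α) (i e4 e3 : Nat) (a : α) (m m' : Nat) : α :=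
  force (Nat.add (Nat.add m (nat_lit 3)) (Nat.add e3 e4)) (ew8 c p f i e4 e3 a m m')
def ew6 (c : CL) (p : Nat → Nat → Bool) (f : FE α) (i e4 e3 : Nat) (a : α) (m : Nat) : α :=
  force (Nat.add m (nat_lit 4)) (ew7 c p f i e4 e3 a m)
def ew5 (c : CL) (p : Nat → Nat → Bool) (f : FE α) (i e4 m e3 : Nat) (a : α) : α :=
  force (Nat.sub m (Nat.mul (nat_lit 13) e3)) (ew6 c p f i e4 e3 a)
def ew4 (c : CL) (p : Nat → Nat → Bool) (f : FE α) (i e4 : Nat) (a : α) (m : Nat) : α :=
  loop (ew5 c p f i e4 m) (Nat.succ (Nat.div m (nat_lit 13))) a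
def ew3 (c : CL) (p : Nat → Nat → Bool) (f : FE α) (i m e4 : Nat) (a : α) : α :=
  force (Nat.sub m (Nat.mul (nat_lit 40) e4)) (ew4 c p f i e4 a)
def ew2 (c : CL) (p : Nat → Nat → Bool) (f : FE α) (i : Nat) (a : α) (m : Nat) : α :=
  loop (ew3 c p f i m) (Nat.succ (Nat.div m (nat_lit 40))) a
def ew1 (c : CL) (p : Nat → Nat → Bool) (f : FE α) (T i : Nat) (a : α) (d : Nat) : α :=
  Bool.rec (motive := fun _ => α) a (force (Nat.sub T d) (ew2 c p f i a)) (Nat.ble d T)
def ew0 (c : CL) (p : Nat → Nat → Bool) (f : FE α) (L : LD) (T i : Nat) (a : α) : α :=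
  force (L.dg i) (ew1 c p f T i a)
/-- a loop over the last monomials in the ideal of all chains -/
def enumW (c : CL) (p : Nat → Nat → Bool) (f : FE α) (L : LD) (T : Nat) (a : α) : α :=
  loop (ew0 c p f L T) L.n a

end enum

def gk1 (u v n j ih : Nat) : Nat :=
  Bool.rec (motive := fun _ => Nat) (Nat.lor ih (Nat.shiftLeft (nat_lit 1) j)) ih
    (Nat.ble n (Nat.add (Nat.mul u (Nat.div j (nat_lit 3))) (Nat.mul v (Nat.mod j (nat_lit 3)))))
/-- the places with a bounded linear form -/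
def gk (u v n : Nat) : Nat := loop (gk1 u v n) (nat_lit 30) (nat_lit 0)
def mu2 (u v : Nat) (L : LD) (y i ih d : Nat) : Nat :=
  Nat.lor ih (Nat.shiftLeft (Nat.land (force (Nat.sub y d) (gk u v))
    (force (Nat.sub (Nat.succ L.T) d) (gk (nat_lit 13) (nat_lit 40)))) (L.pos i))
def mu1 (u v : Nat) (L : LD) (y i ih : Nat) : Nat := force (L.dg i) (mu2 u v L y i ih)
/-- the same for all generators -/
def mu (u v : Nat) (L : LD) (y : Nat) : Nat := loop (mu1 u v L y) L.n (nat_lit 0)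
/-- the exponent of `v_1` is at least `a` -/
def mA (L : LD) (T e a : Nat) : Nat :=
  force (Nat.sub (Nat.succ T) (Nat.add a (Nat.mul (nat_lit 4) e))) (mu (nat_lit 13) (nat_lit 40) L)
/-- the length is at least `b` -/
def mB (L : LD) (T e b : Nat) : Nat :=
  force (Nat.sub (Nat.succ T) (Nat.add b (Nat.mul (nat_lit 3) e))) (mu (nat_lit 12) (nat_lit 39) L)
def mg1 (L : LD) (T e : Nat) (x : Nat × Nat) (_ : CL) (ih : Nat) : Nat :=
  Nat.lor ih (Nat.land (mA L T e x.1) (mB L T e x.2))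
/-- the monomial with the exponent `e` of `v_2` lies in the ideal -/
def mG (L : LD) (T : Nat) (c : CL) (e : Nat) : Nat :=
  List.rec (motive := fun _ => Nat) (nat_lit 0) (mg1 L T e) c
def mw1 (L : LD) (T : Nat) (c' : CL) (e x : Nat) : Nat := Nat.xor x (Nat.land x (mG L T c' e))
/-- the same for a window -/
def mW (L : LD) (T : Nat) (c c' : CL) (e : Nat) : Nat := force (mG L T c e) (mw1 L T c' e)
def ma1 (L : LD) (T : Nat) (c c' : CL) (j e ih : Nat) : Nat :=
  Nat.lor ih (Nat.land (mW L T c c' e) (mA L T e j))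
def mAA (L : LD) (T : Nat) (c c' : CL) (j : Nat) : Nat :=
  loop (ma1 L T c c' j) (Nat.succ (Nat.div T (nat_lit 4))) (nat_lit 0)
def mb1 (L : LD) (T : Nat) (c c' : CL) (l e ih : Nat) : Nat :=
  Nat.lor ih (Nat.land (mW L T c c' e) (mB L T e l))
def mBB (L : LD) (T : Nat) (c c' : CL) (l : Nat) : Nat :=
  loop (mb1 L T c c' l) (Nat.succ (Nat.div T (nat_lit 4))) (nat_lit 0)
/-- the places of the monomials of the window above `(j, l)` -/
def mskF (L : LD) (T : Nat) (c c' : CL) (j l : Nat) : Nat :=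
  Nat.land (mAA L T c c' j) (mBB L T c c' l)

def rf1 (r : Rw) (L' : LD) (T : Nat) (c c' : CL) (O i j l e2 e3 e4 : Nat) (acc : PL) : PL :=
  force (mskF L' T c c' j l) (rj2 r O i e2 e3 e4 acc)
/-- the rows of the monomials of the window -/
def rowsF (r : Rw) (L L' : LD) (T : Nat) (c c' : CL) (rest : PL) (O : Nat) : PL :=
  enumW c (wn c c') (rf1 r L' T c c' O) L T rest
def rkf (r : Rw) (L L' : LD) (T : Nat) (c c1 c2 : CL) (O i j l e2 e3 e4 : Nat) (acc : PL) : PL :=
  force (mskF L' T c c1 j l) (rk2 r L c2 O i j l e2 e3 e4 acc)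
/-- the rows together with the coordinates of the monomials -/
def rowsKF (r : Rw) (L L' : LD) (T : Nat) (c c1 c2 : CL) (O : Nat) : PL :=
  enumW c (pkJ c c1 c2) (rkf r L L' T c c1 c2 O) L T PL.nil
def lBF (r : Rw) (L L' : LD) (T : Nat) (c c' : CL) (l : PL) (O : Nat) : PL :=
  rowsF r L L' T c c' (shL l O) O

variable (D : KD)

def bf1 (s T : Nat) (c c' : CL) (l : PL) (q : Nat) : Nat → PL := lBF (D.r q) (D.L q) (D.L s) T c c' l
/-- rows of boundaries and of the list -/
def bdF (s T : Nat) (c c' : CL) (l : PL) : Nat → PL :=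
  Nat.rec (motive := fun _ => Nat → PL) (shL l) (fun q _ => bf1 D s T c c' l q) s
def gf2 (s T : Nat) (c c1 cb c2 : CL) (s' : Nat) (l : PL) : Bool :=
  kg (rowsKF (D.r s) (D.L s) (D.L s') T c c1 c2) (bdF D s T cb c2 l) (D.L s) (D.L s')
def gf1 (s T : Nat) (c c1 cb c2 : CL) (l : List VC) (s' : Nat) : Bool :=
  runL l (gf2 D s T c c1 cb c2 s')
/-- the general check -/
def genF (s T : Nat) (c c1 cb c2 : CL) (l : List VC) : Bool :=
  force (Nat.succ s) (gf1 D s T c c1 cb c2 l)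

end Vale.Agent.P236JY

end
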