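import Vale.Agent.P236JY.Fs
import Vale.Agent.P236JX.Top

/-!
# P236JY / FsX : faster versions of the checks on lists
-/

noncomputable section

namespace Vale.Agent.P236JY

open Vale.Agent.P236EL Vale.Agent.P236KE Vale.Agent.P236K3 Vale.Agent.P236J3 Vale.Agent.P236JR
  Vale.Agent.P236JX Vale.Agent.P236F Vale.Agent.P251.F

section programs

variable (D : KD) (s T : Nat)

def if2 (c c' : CL) (l : PL) (x : P) : Bool := inS (D.L s) (bdF D s T c c' l (nat_lit 0)) x true
def if1 (c c' : CL) (v : VC) (l : PL) : Bool := v.run (if2 D s T c c' l)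
/-- membership -/
def inF (c c' : CL) (l : List VC) (v : VC) : Bool := runL l (if1 D s T c c' v)
def nf2 (c c' : CL) (l : PL) (x : P) : Bool := noS (D.L s) (bdF D s T c c' l (nat_lit 0)) x true
def nf1 (c c' : CL) (v : VC) (l : PL) : Bool := v.run (nf2 D s T c c' l)
/-- non-membership -/
def noF (c c' : CL) (l : List VC) (v : VC) : Bool := runL l (nf1 D s T c c' v)

end programs

variable {G : Type} {ix : G → ℕ} {D : KD} {s T : ℕ} {c c' : CL}

theorem inF_eq (hL : (D.L s).Ok ix) (hT : T ≤ (D.L s).T) (hV : Vis c c' = true) (l : List VC)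
    (v : VC) : inF D s T c c' l v = D.inJ s T c c' l v := by
  have h : if2 D s T c c' = D.ij2 s T c c' := by
    funext l x
    rw [if2, bdF_eq hL hT hV, KD.ij2]
  have h1 : if1 D s T c c' v = D.ij1 s T c c' v := by
    funext l
    rw [if1, h, KD.ij1]
  rw [inF, h1, KD.inJ]

theorem noF_eq {E : JD} (hL : (E.D.L s).Ok ix) (hT : T ≤ (E.D.L s).T) (hV : Vis c c' = true)
    (l : List VC) (v : VC) : noF E.D s T c c' l v = E.noL s T c c' l v := by
  have h : nf2 E.D s T c c' = E.nl2 s T c c' := by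
    funext l x
    rw [nf2, bdF_eq hL hT hV, JD.nl2]
  have h1 : nf1 E.D s T c c' v = E.nl1 s T c c' v := by
    funext l
    rw [nf1, h, JD.nl1]
  rw [noF, h1, JD.noL]

end Vale.Agent.P236JY

namespace Vale.Agent.P236JX

open Vale.Agent.P236EL Vale.Agent.P236KE Vale.Agent.P236K3 Vale.Agent.P236J3 Vale.Agent.P236JR
  Vale.Agent.P236JY Vale.Agent.P236F Vale.Agent.P251.F

namespace JD

variable (E : JD) (s T : Nat)

/-- the fast form of `ge` -/
def geF (c c1 cb c2 : CN) (ls : List (List Tr)) : Bool :=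
  E.bn s T (grd (Vis c c1) (grd (Le c cb) (grd (Vis cb c2) (grd (E.oks s T cb ls)
    (genF E.D s T c c1 cb c2 (E.vcs s c2 ls))))))
def indF (c c' : CN) (ls : List (List Tr)) : Bool :=
  List.rec (motive := fun _ => Bool) true
    (fun l ls ih => grd (noF E.D s T c c' (E.vcs s c' ls) (vcJ (E.D.L s) c' l)) ih) ls
/-- the fast form of `id` -/
def idF (c c' : CN) (ls : List (List Tr)) : Bool :=
  E.bn s T (grd (Vis c c') (grd (E.oks s T c ls) (E.indF s T c c' ls)))
/-- the fast form of `mb` -/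
def mbF (c c' : CN) (ls : List (List Tr)) (l : List Tr) : Bool :=
  E.bn s T (grd (Vis c c') (grd (E.oks s T c (l :: ls))
    (inF E.D s T c c' (E.vcs s c' ls) (vcJ (E.D.L s) c' l))))
/-- the fast form of `nm` -/
def nmF (c c' : CN) (ls : List (List Tr)) (l : List Tr) : Bool :=
  E.bn s T (grd (Vis c c') (grd (E.oks s T c (l :: ls))
    (noF E.D s T c c' (E.vcs s c' ls) (vcJ (E.D.L s) c' l))))

end JD

theorem grd_imp {a b b' : Bool} (h : grd a b = true) (h' : a = true → b = true → b' = true) :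
    grd a b' = true := by
  obtain ⟨h1, h2⟩ := grd_spec h
  rw [h' h1 h2, h1]
  rfl

namespace WxJ

variable [Fact (Nat.Prime 3)] {G : ℕ → Type} [∀ q, Fintype (G q)] [DecidableEq (G 0)]
  {R : Rs 3 K G} {θ : G 0 → G 0 → Cob Laz 1} {E : JD} {ix : ∀ q, G (q + 1) → ℕ}
  {Tm s3 s4 : ℕ} (H : WxJ R θ E ix Tm s3 s4) {s T : ℕ} {c c' c1 cb c2 : CN} {l : List Tr}
  {ls : List (List Tr)}

include H

theorem bn_imp {b b' : Bool} (h : E.bn s T b = true)
    (h' : (∀ q, T ≤ (E.D.L q).T) → b = true → b' = true) : E.bn s T b' = true :=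
  grd_imp h fun _ h1 => grd_imp h1 fun _ h2 => h' (fun q => (H.cx.hT q).symm ▸ (H.bn h).2.1) h2

theorem geF (h : E.geF s T c c1 cb c2 ls = true) : E.ge s T c c1 cb c2 ls = true :=
  H.bn_imp h fun hT h => grd_imp h fun h1 h => grd_imp h fun h2 h => grd_imp h fun h3 h =>
    grd_imp h fun _ h =>
      (genF_eq (H.cx.ok s) (H.cx.ok (s + 1)) (hT s) (hT (s + 1)) h1 h2 h3 _).symm.trans h

theorem indF (hT : T ≤ (E.D.L s).T) (hV : Vis c c' = true) (ls : List (List Tr)) :
    E.indF s T c c' ls = E.ind s T c c' ls := by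
  induction ls with
  | nil => rfl
  | cons l ls ih =>
    change grd (noF E.D s T c c' (E.vcs s c' ls) (vcJ (E.D.L s) c' l)) (E.indF s T c c' ls) =
      grd (E.noL s T c c' (E.vcs s c' ls) (vcJ (E.D.L s) c' l)) (E.ind s T c c' ls)
    rw [noF_eq (H.cx.ok s) hT hV, ih]

theorem idF (h : E.idF s T c c' ls = true) : E.id s T c c' ls = true :=
  H.bn_imp h fun hT h => grd_imp h fun h1 h => grd_imp h fun _ h =>
    (H.indF (hT s) h1 ls).symm.trans h

theorem mbF (h : E.mbF s T c c' ls l = true) : E.mb s T c c' ls l = true :=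
  H.bn_imp h fun hT h => grd_imp h fun h1 h => grd_imp h fun _ h =>
    (inF_eq (H.cx.ok s) (hT s) h1 _ _).symm.trans h

theorem nmF (h : E.nmF s T c c' ls l = true) : E.nm s T c c' ls l = true :=
  H.bn_imp h fun hT h => grd_imp h fun h1 h => grd_imp h fun _ h =>
    (noF_eq (H.cx.ok s) (hT s) h1 _ _).symm.trans h

end WxJ

end Vale.Agent.P236JX

end
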