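import Vale.Agent.P236JY.Sph
import Vale.Agent.P236JR.Row
import Vale.Agent.P236J3.Top

/-!
# P236JY / Kd : layouts and rows of the lifted resolution
-/

noncomputable section

namespace Vale.Agent.P236JY

open MvPolynomial Vale.Agent.P236EL Vale.Agent.P236KE Vale.Agent.P236K3 Vale.Agent.P236KE.S90
open Vale.Agent.P236JR Vale.Agent.P236J3

def ro1 (k : Nat) (Y : Fm) (L' : LD) (c i e2 e3 e4 d : Nat) : P :=
  row1 k (ylO (Y.f i) L' d) L'.cm d c e2 e3 e4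
def ro0 (k : Nat) (Y : Fm) (L L' : LD) (c i e2 e3 e4 : Nat) : P :=
  force (L.dg i) (ro1 k Y L' c i e2 e3 e4)
/-- the old rows -/
def rwO (k : Nat) (Y : Fm) (L L' : LD) : Rw := ⟨ro0 k Y L L'⟩
def fj1 (Y : Fm) (L L' : LD) (i : Nat) : Fn := force (L.dg i) (ylJ (Y.f i) L')
/-- the new rows -/
def rwN (k : Nat) (Y : Fm) (L L' : LD) : Rw := P236JR.rwJ k ⟨fj1 Y L L'⟩

theorem rwO_f (k : ℕ) (Y : Fm) (L L' : LD) (c i e2 e3 e4 : ℕ) : (rwO k Y L L').f c i e2 e3 e4 =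
    row1 k (ylO (Y.f i) L' (L.dg i)) L'.cm (L.dg i) c e2 e3 e4 := by
  change ro0 k Y L L' c i e2 e3 e4 = _
  rw [ro0, force_eq, ro1]

theorem fj1_eq (Y : Fm) (L L' : LD) (i : ℕ) : fj1 Y L L' i = ylJ (Y.f i) L' (L.dg i) := by
  rw [fj1, force_eq]

/-- doubly indexed families -/
structure F2 : Type where
  f : Nat → Nat → Fn

def ko1 (S : Sq) (T k : Nat) (Y : F2) (q q' : Nat) : Rw := rwO k ⟨Y.f q⟩ (sL S T q) (sL S T q')
def ko0 (S : Sq) (T k : Nat) (Y : F2) (q : Nat) : Rw := force (Nat.succ q) (ko1 S T k Y q)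
/-- the data with the old rows -/
def kdO (S : Sq) (T k : Nat) (Y : F2) : KD := ⟨sL S T, ko0 S T k Y⟩
def kn1 (S : Sq) (T k : Nat) (Y : F2) (q q' : Nat) : Rw := rwN k ⟨Y.f q⟩ (sL S T q) (sL S T q')
def kn0 (S : Sq) (T k : Nat) (Y : F2) (q : Nat) : Rw := force (Nat.succ q) (kn1 S T k Y q)
/-- the data with the new rows -/
def kdN (S : Sq) (T k : Nat) (Y : F2) : KD := ⟨sL S T, kn0 S T k Y⟩

variable [Fact (Nat.Prime 3)]

section

variable {G G' : Type} [Fintype G] [Fintype G'] {L L' : LD} {ix : G → ℕ} {ix' : G' → ℕ}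
  {y0 : G → G' → Mo → A} {s3 s4 : ℕ} (hL : L.Ok ix) (hL' : L'.Ok ix')
  (hy : ∀ w w', HomR 3 ((L.dg (ix w) : ℤ) - L'.dg (ix' w')) (y0 w w')) (Y : Fm)

include hL hL' hy

omit [Fintype G] in
theorem st_yJ : St (fun w w' => yJ K (y0 w w') (Y.f (ix w)) L' s3 s4 (L.dg (ix w)) (ix' w'))
    L ix L' ix' s3 s4 (rwO ((13 + 384 * s3) * 3) Y L L') :=
  ⟨hL, hL', fun w w' => homR_yJ (hy w w'), fun F w e1 e2 e3 e4 h => by
    rw [rwO_f]
    exact row1_spec hL' (fun w' => homR_yJ (hy w w')) (ylO_fam hL') F e1 e2 e3 e4 h⟩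

theorem stJ_yJ : StJ (fun w w' => yJ K (y0 w w') (Y.f (ix w)) L' s3 s4 (L.dg (ix w)) (ix' w'))
    L ix L' ix' s3 s4 (rwN (13 + 384 * s3) Y L L') :=
  stJ_of (Y := ⟨fj1 Y L L'⟩) hL hL' (fun w w' => homR_yJ (hy w w')) fun w F a ha hF => by
    change P.R ((fj1 Y L L' (ix w)).f _) _
    rw [fj1_eq, pa_v1, mul_one]
    exact ylJ_R hL' hF ha

end

variable (S : Sq) {T k : ℕ} (Y : F2)

theorem rsJ_y (q : ℕ) : (rsJ S T Y.f).y q = fun (w : S.G (q + 1)) (w' : S.G (q + 2)) => yJ K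
    ((S.rs K).y q w w') (Y.f q w) (sL S T (q + 1)) S.s3 S.s4 ((sL S T q).dg w) w' := by
  rw [sL_dg]
  rfl

theorem rs_hy (q : ℕ) (w : S.G (q + 1)) (w' : S.G (q + 2)) :
    HomR 3 (((sL S T q).dg w : ℤ) - (sL S T (q + 1)).dg w') ((S.rs K).y q w w') := by
  rw [sL_dg, sL_dg]
  exact (S.rs K).hy q w w'

/-- the old checks for the new resolution -/
theorem cx_rsJ (hT : T < 120) (hk : k = (13 + 384 * S.s3) * 3) :
    Cx (rsJ S T Y.f) 0 T S.s3 S.s4 (kdO S T k Y) fun _ => Fin.val := by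
  subst hk
  refine ⟨fun q => ?_, fun q w => ?_, fun q => sL_T S T q⟩
  · change St _ (sL S T q) _ (sL S T (q + 1)) _ _ _ (ko0 S T _ Y q)
    rw [ko0, force_eq, ko1, rsJ_y]
    exact st_yJ (sL_ok S hT q) (sL_ok S hT (q + 1)) (rs_hy S q) ⟨Y.f q⟩
  · change _ = ((sL S T q).dg w : ℤ) + 0
    rw [sL_dg, add_zero]
    rfl

theorem stJ_rsJ (hT : T < 120) (hk : k = 13 + 384 * S.s3) (q : ℕ) : StJ ((rsJ S T Y.f).y q)
    (sL S T q) Fin.val (sL S T (q + 1)) Fin.val S.s3 S.s4 ((kdN S T k Y).r q) := by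
  subst hk
  change StJ _ _ _ _ _ _ _ (kn0 S T (13 + 384 * S.s3) Y q)
  rw [kn0, force_eq, kn1, rsJ_y]
  exact stJ_yJ (sL_ok S hT q) (sL_ok S hT (q + 1)) (rs_hy S q) ⟨Y.f q⟩

theorem cxJ_rsJ (hT : T < 120) {k' : ℕ} (hk : k = (13 + 384 * S.s3) * 3)
    (hk' : k' = 13 + 384 * S.s3) (Q : ℕ) :
    CxJ (rsJ S T Y.f) 0 Q T S.s3 S.s4 (mK (kdO S T k Y) (kdN S T k' Y)) fun _ => Fin.val :=
  CxJ.of (cx_rsJ S Y hT hk) fun q _ F w e2 e3 e4 h =>
    (stJ_rsJ S Y hT hk' q).row F 0 w e2 e3 e4 (by decide) h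

/-- the lifted resolution of the unit with the old rows -/
def dJO : KD := kdO sph (nat_lit 90) (nat_lit 26535) ⟨yH⟩
/-- the same with the new rows -/
def dJN : KD := kdN sph (nat_lit 90) (nat_lit 8845) ⟨yH⟩
/-- the same with the merged rows -/
def dJ : KD := mK dJO dJN

theorem cxO : Cx rJ 0 90 sph.s3 sph.s4 dJO fun _ => Fin.val := by
  rw [rJ, dJO]
  exact cx_rsJ sph ⟨yH⟩ (by decide) (by decide +kernel)

theorem stN (q : ℕ) : StJ (rJ.y q) (sL sph 90 q) Fin.val (sL sph 90 (q + 1)) Fin.val sph.s3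
    sph.s4 (dJN.r q) := by
  rw [rJ, dJN]
  exact stJ_rsJ sph ⟨yH⟩ (by decide) (by decide +kernel) q

/-- **the data describe the lifted resolution** -/
theorem cxJ (Q : ℕ) : CxJ rJ 0 Q 90 sph.s3 sph.s4 dJ fun _ => Fin.val := by
  rw [rJ, dJ, dJO, dJN]
  exact cxJ_rsJ sph ⟨yH⟩ (by decide) (by decide +kernel) (by decide +kernel) Q

omit [Fact (Nat.Prime 3)] in
theorem dJ_L : dJ.L = sL sph 90 := rfl

end Vale.Agent.P236JY

end
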