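import Vale.Agent.P236JY.Y
import Vale.Agent.P236JR.Crd
import Vale.Agent.P236K3.Top

/-!
# P236JY / Rd : readers of the rows, comparison with the old functionals, the new resolution
-/

noncomputable section

namespace Vale.Agent.P236JY

open MvPolynomial Vale.Agent.P236EL Vale.Agent.P236KE Vale.Agent.P236K2 Vale.Agent.P236K3
open Vale.Agent.P236JR (cq lo cq_single cqm_monomial cr_eq_cq cq_mul)

def tA1 (a b _ _ _ : Nat) : Bool := Nat.ble (Nat.add a b) (nat_lit 2)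
/-- the exponent of `v_1` stays small after the product with `v_1 ^ a` -/
def tA (a : Nat) : T4 := ⟨tA1 a⟩
def tO1 (a n c e : Nat) : Bool := Nat.ble (Nat.add (Nat.add (Nat.add a n) c) e) (nat_lit 2)
/-- the length is less than three -/
def tO : T4 := ⟨tO1⟩

def yt1 (t : T4) (Y : Fn) (L : LD) (c W : Nat) : P := cm (Y.f c) (mJ t L W)
def yt0 (t : T4) (Y : Fn) (L : LD) (d c : Nat) : P :=
  force (Nat.add (Nat.mod c (nat_lit 384)) d) (yt1 t Y L c)
/-- the rows in the window of the lengths less than three -/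
def ylO (Y : Fn) (L : LD) (d : Nat) : Fn := ⟨yt0 tO Y L d⟩
/-- the rows modulo the cube of `v_1` -/
def ylA (Y : Fn) (L : LD) (d : Nat) : Fn := ⟨yt0 (tA (nat_lit 0)) Y L d⟩
def yj2 (Y : Fn) (L : LD) (W a c : Nat) : P := yt1 (tA a) Y L c W
def yj1 (Y : Fn) (L : LD) (x W a : Nat) : P :=
  force (Nat.sub x (Nat.mul (nat_lit 128) a)) (yj2 Y L W a)
def yj0 (Y : Fn) (L : LD) (x W : Nat) : P :=
  force (Nat.div (Nat.mod x (nat_lit 384)) (nat_lit 128)) (yj1 Y L x W)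
def yj (Y : Fn) (L : LD) (d x : Nat) : P :=
  force (Nat.add (Nat.mod x (nat_lit 128)) d) (yj0 Y L x)
/-- the same with the exponent `a` of `v_1` in the key `cd F + 128 a` -/
def ylJ (Y : Fn) (L : LD) (d : Nat) : Fn := ⟨yj Y L d⟩

variable {G : Type} [Fintype G] {ix : G → ℕ} {L : LD} {y0 : G → (ℕ →₀ ℕ) → A} {Y : Fn}
  {s3 s4 d : ℕ} {F : ℕ →₀ ℕ}

theorem yt1_R (hL : L.Ok ix) {S : (ℕ →₀ ℕ) → Prop} {t : T4}
    (ht : ∀ a n c e, a < 3 → (t.t a n c e = true ↔ S (mk4 a n c e))) (h : wtM F + d ≤ L.T) :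
    (yt1 t Y L (cd s3 s4 F) (wtM F + d)).R
      (cq L ix S (Z (fun w => yJ K (y0 w) Y L s3 s4 d (ix w)) (monomial F 1))) := by
  classical
  refine (congrArg (fun u => P.R _ (cq L ix S u)) (funext fun w => ?_)).mpr
    (row_R hL (q := (cq L ix S).toAddMonoidHom)
      (fun w J c => (cq_single S w _).trans (cqm_monomial S _ J c)) ht _ h)
  change rAp _ _ _ = _
  rw [rAp_monomial, one_mul, RingHom.id_apply]
  exact yJ_le h

omit [Fintype G] in
theorem cd_mod (hL : L.Ok ix) (h : wtM F + d ≤ L.T) : cd s3 s4 F % 384 = wtM F := by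
  have := hL.hT
  rw [cd]
  omega

/-- **the base of the rows modulo the cube of `v_1`** -/
theorem ylA_R (hL : L.Ok ix) (h : wtM F + d ≤ L.T) : ((ylA Y L d).f (cd s3 s4 F)).R
    (cq L ix (lo 3) (Z (fun w => yJ K (y0 w) Y L s3 s4 d (ix w)) (monomial F 1))) := by
  change (yt1 _ Y L _ (cd s3 s4 F % 384 + d)).R _
  rw [cd_mod hL h]
  refine yt1_R hL (fun a n c e _ => ?_) h
  change Nat.ble (0 + a) 2 = true ↔ mk4 a n c e 0 < 3
  rw [Nat.ble_eq, mk4_0]
  omega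

theorem ylJ_R (hL : L.Ok ix) (h : wtM F + d ≤ L.T) {a : ℕ} (ha : a < 3) :
    ((ylJ Y L d).f (cd s3 s4 F + 128 * a)).R
      (cq L ix (lo (3 - a)) (Z (fun w => yJ K (y0 w) Y L s3 s4 d (ix w)) (monomial F 1))) := by
  have h1 := cd_mod (s3 := s3) (s4 := s4) hL h
  have h2 := hL.hT
  change (yt1 (tA ((cd s3 s4 F + 128 * a) % 384 / 128)) Y L (cd s3 s4 F + 128 * a - 128 *
    ((cd s3 s4 F + 128 * a) % 384 / 128)) ((cd s3 s4 F + 128 * a) % 128 + d)).R _
  rw [show (cd s3 s4 F + 128 * a) % 384 / 128 = a by omega, Nat.add_sub_cancel,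
    show (cd s3 s4 F + 128 * a) % 128 = wtM F by omega]
  refine yt1_R hL (fun b n c e _ => ?_) h
  change Nat.ble (a + b) 2 = true ↔ mk4 b n c e 0 < 3 - a
  rw [Nat.ble_eq, mk4_0]
  omega

/-- **the base of the old rows** -/
theorem ylO_fam (hL : L.Ok ix) :
    Fam L ix (fun w => yJ K (y0 w) Y L s3 s4 d (ix w)) s3 s4 d 0 1 (ylO Y L d) := fun F h => by
  change (yt1 _ Y L _ (cd s3 s4 F % 384 + d)).R _
  rw [cd_mod hL h, ps_apply, mul_one, cr_eq_cq]
  refine yt1_R hL (fun a n c e _ => ?_) h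
  change Nat.ble (a + n + c + e) 2 = true ↔ 0 ≤ lenM _ ∧ lenM _ < 0 + 3
  rw [Nat.ble_eq, lenM, weight_mk4]
  omega

theorem diff_mem (hL : L.Ok ix) (hy : ∀ w, HomR 3 ((d : ℤ) - L.dg (ix w)) (y0 w))
    (h : Fam L ix y0 s3 s4 d 0 1 (ylO Y L d)) (w : G) (E : ℕ →₀ ℕ) :
    yJ K (y0 w) Y L s3 s4 d (ix w) E - y0 w E ∈ I ^ 3 := by
  by_cases hE : wtM E + d ≤ L.T
  · have h1 := rp_unique (ylO_fam (y0 := y0) hL E hE) (h E hE)
    rw [ps_apply, ps_apply, mul_one, ← sub_eq_zero, ← map_sub] at h1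
    have h2 := (HZ L ix (wtM E + d) 0).sub_mem
      ⟨Z_hm (fun w => homR_yJ (Y := Y) (s3 := s3) (s4 := s4) (hy w)) (hg_mon E),
        Z_mem (n := 0) (by simp)⟩ ⟨Z_hm hy (hg_mon E), Z_mem (n := 0) (by simp)⟩
    have h3 := mem_of_cr hL hE h2.1 le_rfl h2.2 h1 w
    change rAp (RingHom.id A) _ _ - rAp (RingHom.id A) _ _ ∈ _ at h3
    rwa [rAp_monomial, rAp_monomial, one_mul, one_mul] at h3
  · rw [yJ_gt (not_le.1 hE), sub_self]
    exact zero_mem _

/-! ### a test for all monomials of bounded weight -/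

/-- tests -/
structure T1 : Type where
  t : Nat → Bool

def al1 (t : T1) (j : Nat) (c : Bool) : Bool := Bool.rec (motive := fun _ => Bool) false c (t.t j)
/-- the test holds up to `n` -/
def al (t : T1) (n : Nat) : Bool := loop (al1 t) (Nat.succ n) true

theorem al_spec {t : T1} {n j : ℕ} (h : al t n = true) (hj : j ≤ n) : t.t j = true := by
  revert h
  refine loop_cov (Q := fun c => c = true → t.t j = true) _ (Nat.lt_succ_of_le hj)
    (fun c => ?_) fun i c hc => ?_ <;> rw [al1]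
  · cases t.t j <;> simp
  · exact bool_ind (Q := fun c => c = true → _) nofun fun _ => hc

def am6 (t : T1) (c j : Nat) : Bool := force (Nat.add c j) t.t
def am5 (t : T1) (n c : Nat) : Bool := al ⟨am6 t c⟩ n
def am4 (t : T1) (k c j n : Nat) : Bool := force (Nat.add c (Nat.mul k j)) (am5 t n)
def am3 (f : Nat → Nat → Bool) (k c j n : Nat) : Bool := force (Nat.add c (Nat.mul k j)) (f n)
def am2 (f : Nat → Nat → Bool) (w k n c j : Nat) : Bool :=
  force (Nat.sub n (Nat.mul w j)) (am3 f k c j)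
def am1 (f : Nat → Nat → Bool) (w k n c m : Nat) : Bool := al ⟨am2 f w k n c⟩ m
def am0 (f : Nat → Nat → Bool) (w k n c : Nat) : Bool := force (Nat.div n w) (am1 f w k n c)
/-- the test holds for the codes of all monomials of weight at most `n` -/
def allM (t : T1) (k3 k4 n : Nat) : Bool :=
  am0 (am0 (am0 (am5 t) (nat_lit 4) (nat_lit 388)) (nat_lit 13) k3) (nat_lit 40) k4 n (nat_lit 0)

theorem am0_spec {f : ℕ → ℕ → Bool} {w k n c j : ℕ} (h : am0 f w k n c = true) (hw : 0 < w)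
    (hj : w * j ≤ n) : f (n - w * j) (c + k * j) = true :=
  al_spec (t := ⟨am2 f w k n c⟩) (n := n / w) h ((Nat.le_div_iff_mul_le hw).2 (mul_comm w j ▸ hj))

theorem allM_spec {t : T1} {n : ℕ} (h : allM t (13 + 384 * s3) (40 + 384 * s4) n = true)
    (hn : n < 120) (hF : wtM F ≤ n) : t.t (cd s3 s4 F) = true := by
  have h1 := (wt_len (J := F) (by omega)).1
  have h2 := am0_spec (j := F 1) (am0_spec (j := F 2) (am0_spec (j := F 3) h (by decide)
    (by change 40 * _ ≤ _; omega)) (by decide) (by change 13 * _ ≤ n - 40 * _; omega)) (by decide)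
    (by change 4 * _ ≤ n - 40 * _ - 13 * _; omega)
  have h3 := al_spec (t := ⟨am6 t _⟩) (j := F 0) h2
    (by change _ ≤ n - 40 * _ - 13 * _ - 4 * _; omega)
  refine (congrArg (t.t · = true) ?_).mpr h3
  change _ = 0 + (40 + 384 * s4) * F 3 + (13 + 384 * s3) * F 2 + 388 * F 1 + F 0
  rw [cd, h1]
  ring

def eq2 (x y : P) : Bool := and (Nat.beq x.a y.a) (Nat.beq x.b y.b)
def eq1 (g g' : Fn) (c : Nat) : Bool := eq2 (g.f c) (g'.f c)
/-- two families agree on the monomials of weight at most `n` -/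
def eqF (g g' : Fn) (k3 k4 n : Nat) : Bool := allM ⟨eq1 g g'⟩ k3 k4 n

theorem eqF_spec {g g' : Fn} {n : ℕ} (h : eqF g g' (13 + 384 * s3) (40 + 384 * s4) n = true)
    (hn : n < 120) (hF : wtM F ≤ n) : g.f (cd s3 s4 F) = g'.f (cd s3 s4 F) := by
  have h1 : eq2 (g.f (cd s3 s4 F)) (g'.f (cd s3 s4 F)) = true := allM_spec h hn hF
  rw [eq2, Bool.and_eq_true, Nat.beq_eq, Nat.beq_eq] at h1
  generalize g.f _ = x at h1
  generalize g'.f _ = y at h1
  cases x
  cases y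
  exact congrArg₂ P.mk h1.1 h1.2

/-! ### the tables -/

def rd3 (D : DLL) (m k s : Nat) : P := ⟨Nat.shiftRight (dN D m k) s, Nat.shiftRight (dO D m k) s⟩
def rd2 (D : DLL) (N s3 x m k : Nat) : P := force (Nat.mul N (Nat.mod x s3)) (rd3 D m k)
def rd1 (D : DLL) (N s3 c x m : Nat) : P :=
  force (Nat.sub (Nat.mod c (nat_lit 384)) (Nat.add (Nat.mul (nat_lit 13) (Nat.mod m (nat_lit 7)))
    (Nat.mul (nat_lit 40) (Nat.div m (nat_lit 7))))) (rd2 D N s3 x m)
def rd0 (D : DLL) (N s3 c x : Nat) : P := force (Nat.div x s3) (rd1 D N s3 c x)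
def rdf (D : DLL) (N s3 c : Nat) : P := force (Nat.div c (nat_lit 384)) (rd0 D N s3 c)
/-- the rows of a table -/
def rd (D : DLL) (N s3 : Nat) : Fn := ⟨rdf D N s3⟩

theorem rd_f (D : DLL) (N : ℕ) (h : wtM F ≤ 90) : (rd D N 23).f (cd 23 161 F) =
    ⟨dN D (F 2 + 7 * F 3) (F 0 + 4 * F 1) >>> (N * F 1),
      dO D (F 2 + 7 * F 3) (F 0 + 4 * F 1) >>> (N * F 1)⟩ := by
  have h1 := (wt_len (J := F) (by omega)).1
  have h2 : cd 23 161 F / 384 = F 1 + 23 * (F 2 + 7 * F 3) := by rw [cd]; omega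
  have h3 : cd 23 161 F % 384 = wtM F := by rw [cd]; omega
  change rd3 D (cd 23 161 F / 384 / 23) (cd 23 161 F % 384 - (13 * (cd 23 161 F / 384 / 23 % 7) +
    40 * (cd 23 161 F / 384 / 23 / 7))) (N * (cd 23 161 F / 384 % 23)) = _
  rw [h2, h3, show (F 1 + 23 * (F 2 + 7 * F 3)) / 23 = F 2 + 7 * F 3 by omega,
    show (F 1 + 23 * (F 2 + 7 * F 3)) % 23 = F 1 by omega,
    show wtM F - (13 * ((F 2 + 7 * F 3) % 7) + 40 * ((F 2 + 7 * F 3) / 7)) = F 0 + 4 * F 1 by omega]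
  rfl

theorem tr_shr (a b s p : ℕ) : tr ⟨a >>> s, b >>> s⟩ p = tr ⟨a, b⟩ (s + p) := by
  simp only [tr, Nat.testBit_shiftRight]

/-! ### the resolution -/

theorem sL_eq (S : Sq) (T q : ℕ) : sL S T q = mkLD T (S.d q) (S.n q) := by
  rw [sL, force_eq, sL1, force_eq, sL2]

theorem sL_ok (S : Sq) {T : ℕ} (hT : T < 120) (q : ℕ) :
    (sL S T q).Ok (Fin.val : S.G (q + 1) → ℕ) := by
  rw [sL_eq]
  exact mkLD_ok hT _ _

theorem sL_dg (S : Sq) (T q : ℕ) : (sL S T q).dg = byte (S.d q) := by rw [sL_eq]; rfl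
theorem sL_T (S : Sq) (T q : ℕ) : (sL S T q).T = T := by rw [sL_eq]; rfl

variable [Fact (Nat.Prime 3)]

/-- the resolution with the rows `Y q i` -/
def rsJ (S : Sq) (T : ℕ) (Y : ℕ → ℕ → Fn) : Rs 3 K S.G :=
  { S.rs K with
    y := fun q w w' => yJ K ((S.rs K).y q w w') (Y q w) (sL S T (q + 1)) S.s3 S.s4
      (byte (S.d q) w) w'
    hy := fun q w w' => by
      have h := homR_yJ (Y := Y q w) (L' := sL S T (q + 1)) (s3 := S.s3) (s4 := S.s4)
        (d := byte (S.d q) w) (j := w') (y0 := (S.rs K).y q w w')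
        (by rw [sL_dg]; exact (S.rs K).hy q w w')
      rw [sL_dg] at h
      exact h }

def cg2 (S : Sq) (T q i : Nat) (Y : Fn) (L : LD) (k3 k4 d : Nat) : Bool :=
  eqF (ylO Y L d) (ylF (S.D q) L d i) k3 k4 (Nat.sub T d)
def cg1 (S : Sq) (T q i : Nat) (Y : Fn) (k3 k4 q' : Nat) : Bool :=
  force (byte (S.d q) i) (cg2 S T q i Y (sL S T q') k3 k4)
/-- the short parts of the rows are the old rows -/
def cgr (S : Sq) (T q i : Nat) (Y : Fn) (k3 k4 : Nat) : Bool :=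
  force (Nat.succ q) (cg1 S T q i Y k3 k4)

/-- **the new functionals agree with the old ones modulo the cube of the ideal** -/
theorem rsJ_diff {S : Sq} {T : ℕ} (hT : T < 120) {Y : ℕ → ℕ → Fn} {q : ℕ} (w : S.G (q + 1))
    (h : cgr S T q w (Y q w) (13 + 384 * S.s3) (40 + 384 * S.s4) = true) (w' : S.G (q + 2))
    (E : ℕ →₀ ℕ) : (rsJ S T Y).y q w w' E - (S.rs K).y q w w' E ∈ I ^ 3 := by
  rw [cgr, force_eq, cg1, force_eq, cg2] at h
  refine diff_mem (sL_ok S hT (q + 1)) (y0 := (S.rs K).y q w)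
    (fun w' => by rw [sL_dg]; exact (S.rs K).hy q w w') (fun F hF => ?_) w' E
  have h1 := hF
  rw [sL_T] at h1
  rw [eqF_spec h (Nat.lt_of_le_of_lt (Nat.sub_le _ _) hT) (Nat.le_sub_of_add_le h1)]
  exact ylF_spec (sL_ok S hT (q + 1)) (S.D q) (sL_dg S T (q + 1)) S.s3 S.s4 w F hF

end Vale.Agent.P236JY

end
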